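import Mathlib

/-!
P219: the polynomial inequalities behind the certificate in dimension eight. Everything is
scaled by `25200`; `440/25200 = 11/630`, `374/25200 = 187/12600`, `792/25200 = 11/350`.
-/

namespace Vale.Agent.P219.CH.Gen.Eight

noncomputable section

/-- The kernel at distance `r` times `25200 r⁴`, with the square roots replaced by their mean. -/
def P (r u d : ℝ) : ℝ :=
  (3 + 4 * d ^ 2) * (700 - 440 * u ^ 2) + 374 * r ^ 2 * (5 + 2 * d ^ 2) + 792 * r ^ 4 -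
    440 * u * |d| * (2 - u ^ 2 - d ^ 2) - 7 * r * max d 0 * (700 - 440 * u ^ 2 + 374 * r ^ 2)

/-- The end weight, times `25200`. -/
def g0 (c : ℝ) : ℝ := -(16800 * c + 6880 * c ^ 3)

/-- The symmetrised form in `s = c + d`, `p = c d`. -/
def Ssp (r s p : ℝ) : ℝ :=
  4200 + 1480 * (s ^ 2 - 2 * p) - 3520 * p ^ 2 - 880 * p * (2 - s ^ 2 + 2 * p) +
    374 * r ^ 2 * (10 + 2 * s ^ 2 - 4 * p) + 1584 * r ^ 4 - 4900 * r * s + 3080 * r * s * p -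
    2618 * r ^ 3 * s

lemma quartic0 (r h : ℝ) (hr : 0 ≤ r) (hh : 0 ≤ h) :
    0 ≤ 10120 * h ^ 4 - 9800 * r * h ^ 3 + 6732 * r ^ 2 * h ^ 2 - 5236 * r ^ 3 * h +
      1584 * r ^ 4 := by
  nlinarith [sq_nonneg (r - 17 / 10 * h), mul_nonneg hr hh, sq_nonneg (r - 2 * h),
    mul_nonneg (sq_nonneg (r - 17 / 10 * h)) (sq_nonneg r),
    mul_nonneg (sq_nonneg (r - 17 / 10 * h)) (sq_nonneg h),
    mul_nonneg (sq_nonneg (r - 17 / 10 * h)) (mul_nonneg hr hh),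
    pow_nonneg hh 4, pow_nonneg hr 4]

lemma quartic1 (r h : ℝ) (hr : 0 ≤ r) (hh : 0 ≤ h) :
    0 ≤ 1820 * h ^ 4 - 1820 * r * h ^ 3 + 2618 * r ^ 2 * h ^ 2 - 2618 * r ^ 3 * h +
      792 * r ^ 4 := by
  nlinarith [sq_nonneg (r - 17 / 10 * h), mul_nonneg hr hh,
    mul_nonneg (sq_nonneg (r - 17 / 10 * h)) (sq_nonneg r),
    mul_nonneg (sq_nonneg (r - 17 / 10 * h)) (sq_nonneg h),
    mul_nonneg (sq_nonneg (r - 17 / 10 * h)) (mul_nonneg hr hh),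
    pow_nonneg hh 4, pow_nonneg hr 4]

lemma Ssp_zero {r s : ℝ} (hr : 0 ≤ r) (hs : 0 ≤ s) (hs2 : s ≤ 2) : 0 ≤ Ssp r s 0 := by
  obtain ⟨e, he, h1⟩ : ∃ e, 0 ≤ e ∧ s ^ 2 / 4 + e = 1 :=
    ⟨1 - s ^ 2 / 4, by nlinarith, by ring⟩
  have hq := quartic0 r (s / 2) hr (by linarith)
  have h2 : 0 ≤ e * (3580 * s ^ 2 + 3740 * r ^ 2 - 4900 * r * s) :=
    mul_nonneg he (by nlinarith [sq_nonneg (7 * s - 5 * r)])
  have : Ssp r s 0 = 4200 * (s ^ 2 / 4 + e) ^ 2 +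
      (1480 * s ^ 2 + 3740 * r ^ 2 - 4900 * r * s) * (s ^ 2 / 4 + e) +
      748 * r ^ 2 * s ^ 2 + 1584 * r ^ 4 - 2618 * r ^ 3 * s := by
    rw [h1]; unfold Ssp; ring
  nlinarith [mul_nonneg (show (0 : ℝ) ≤ 4200 by norm_num) (sq_nonneg e)]

lemma Ssp_diag {r s : ℝ} (hr : 0 ≤ r) (hs : 0 ≤ s) (hs2 : s ≤ 2) :
    0 ≤ Ssp r s (s ^ 2 / 4) := by
  obtain ⟨h, rfl⟩ : ∃ h, s = 2 * h := ⟨s / 2, by ring⟩
  obtain ⟨e, he, h1⟩ : ∃ e, 0 ≤ e ∧ h ^ 2 + e = 1 :=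
    ⟨1 - h ^ 2, by nlinarith, by ring⟩
  have hq := quartic1 r h hr (by linarith)
  have h2 : 0 ≤ e * (4800 * h ^ 2 + 1870 * r ^ 2 - 4900 * r * h) :=
    mul_nonneg he (by nlinarith [sq_nonneg (3 * h - 2 * r)])
  have : Ssp r (2 * h) ((2 * h) ^ 2 / 4) = 2 * (2100 * (h ^ 2 + e) ^ 2 +
      (600 * h ^ 2 + 1870 * r ^ 2 - 4900 * r * h) * (h ^ 2 + e) +
      (-880 * h ^ 4 + 748 * r ^ 2 * h ^ 2 + 792 * r ^ 4 + 3080 * r * h ^ 3 -
        2618 * r ^ 3 * h)) := by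
    rw [h1]; unfold Ssp; ring
  nlinarith [mul_nonneg (show (0 : ℝ) ≤ 2100 by norm_num) (sq_nonneg e)]

/-- A concave quadratic is at least the smaller of its values at two ends. -/
lemma concave_ends {A B C p M : ℝ} (hC : 0 ≤ C) (hp : 0 ≤ p) (hpM : p ≤ M) (h0 : 0 ≤ A)
    (h1 : 0 ≤ A + B * M - C * M ^ 2) : 0 ≤ A + B * p - C * p ^ 2 := by
  rcases (hp.trans hpM).eq_or_lt with h | h
  · have : p = 0 := le_antisymm (hpM.trans h.ge) hp
    subst this; linarith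
  refine nonneg_of_mul_nonneg_right (b := A + B * p - C * p ^ 2) ?_ h
  have e : M * (A + B * p - C * p ^ 2) =
      (M - p) * A + p * (A + B * M - C * M ^ 2) + M * C * p * (M - p) := by ring
  rw [e]
  have := mul_nonneg (sub_nonneg.2 hpM) h0
  have := mul_nonneg hp h1
  have := mul_nonneg (mul_nonneg (mul_nonneg h.le hC) hp) (sub_nonneg.2 hpM)
  linarith

lemma Ssp_nonneg {r s p : ℝ} (hr : 0 ≤ r) (hs : 0 ≤ s) (hs2 : s ≤ 2) (hp : 0 ≤ p)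
    (hp1 : p ≤ s ^ 2 / 4) : 0 ≤ Ssp r s p := by
  have h := concave_ends (A := Ssp r s 0)
    (B := -2 * 1480 - 880 * (2 - s ^ 2) - 1496 * r ^ 2 + 3080 * r * s) (C := 5280)
    (by norm_num) hp hp1 (Ssp_zero hr hs hs2) (by
      have := Ssp_diag hr hs hs2
      unfold Ssp at this ⊢
      linarith)
  unfold Ssp at h ⊢
  linarith

lemma sum_eq {r c d : ℝ} (hc : 0 ≤ c) (hd : 0 ≤ d) :
    P r c d + P r d c = Ssp r (c + d) (c * d) := by
  unfold P Ssp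
  rw [abs_of_nonneg hc, abs_of_nonneg hd, max_eq_left hc, max_eq_left hd]
  ring

lemma sum_mixed {r c d : ℝ} (hr : 0 ≤ r) (hc : 0 ≤ c) (hc1 : c ≤ 1) (hd : d ≤ 0) :
    0 ≤ P r c d + P r 0 c := by
  unfold P
  rw [abs_of_nonpos hd, max_eq_right hd, max_eq_left hc]
  obtain ⟨x, hx, rfl⟩ : ∃ x, 0 ≤ x ∧ d = -x := ⟨-d, by linarith, by ring⟩
  obtain ⟨e, he, h1⟩ : ∃ e, 0 ≤ e ∧ c ^ 2 + e = 1 :=
    ⟨1 - c ^ 2, by nlinarith, by ring⟩
  have hc2 : 0 ≤ 1 - c ^ 2 := by nlinarith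
  have e1 : 880 * c * x ≤ 1040 * x ^ 2 + 187 * c ^ 2 := by
    nlinarith [sq_nonneg (32 * x - 27 / 2 * c)]
  have k1 : 0 ≤ 1760 * x ^ 2 * (1 - c ^ 2) := by positivity
  have k2 : 0 ≤ 440 * c * x * (c ^ 2 + x ^ 2) := by positivity
  have k3 : 0 ≤ 748 * r ^ 2 * x ^ 2 := by positivity
  have q : 0 ≤ 5493 * c ^ 4 - 4900 * r * c ^ 3 + 4488 * r ^ 2 * c ^ 2 - 2618 * r ^ 3 * c +
      1584 * r ^ 4 := by
    nlinarith [mul_nonneg (sq_nonneg c) (sq_nonneg (r - c)),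
      mul_nonneg (sq_nonneg r) (sq_nonneg (r - c)), sq_nonneg (r ^ 2 - c ^ 2),
      mul_nonneg (mul_nonneg hr hc) (sq_nonneg (r - c)), pow_nonneg hc 4, pow_nonneg hr 4]
  have h2 : 0 ≤ e * (9693 * c ^ 2 + 3740 * r ^ 2 - 4900 * r * c) :=
    mul_nonneg he (by nlinarith [sq_nonneg (2 * r - 2 * c), sq_nonneg c])
  have h3 : 4200 + 1293 * c ^ 2 + 3740 * r ^ 2 + 748 * r ^ 2 * c ^ 2 + 1584 * r ^ 4 -
      4900 * r * c - 2618 * r ^ 3 * c = 4200 * (c ^ 2 + e) ^ 2 +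
      (1293 * c ^ 2 + 3740 * r ^ 2 - 4900 * r * c) * (c ^ 2 + e) + 748 * r ^ 2 * c ^ 2 +
      1584 * r ^ 4 - 2618 * r ^ 3 * c := by rw [h1]; ring
  nlinarith [mul_nonneg (show (0 : ℝ) ≤ 4200 by norm_num) (sq_nonneg e)]

lemma sum_nonneg' {r c d : ℝ} (hr : 0 ≤ r) (hc : |c| ≤ 1) (hd : |d| ≤ 1) :
    0 ≤ P r (max c 0) d + P r (max d 0) c := by
  rw [abs_le] at hc hd
  rcases le_total 0 c with h | h <;> rcases le_total 0 d with h' | h'
  · rw [max_eq_left h, max_eq_left h', sum_eq h h']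
    exact Ssp_nonneg hr (by linarith) (by linarith) (mul_nonneg h h')
      (by nlinarith [sq_nonneg (c - d)])
  · rw [max_eq_left h, max_eq_right h']
    exact sum_mixed hr h hc.2 h'
  · rw [max_eq_right h, max_eq_left h', add_comm]
    exact sum_mixed hr h' hd.2 h
  · rw [max_eq_right h, max_eq_right h']
    unfold P
    rw [max_eq_right h, max_eq_right h']
    ring_nf
    nlinarith [sq_nonneg c, sq_nonneg d, sq_nonneg (r * c), sq_nonneg (r * d), sq_nonneg r,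
      pow_nonneg hr 4]

/-- The pair inequality. -/
theorem pair {r c d : ℝ} (hr : 0 ≤ r) (hc : 0 ≤ c) (hc1 : c ≤ 1) (hd : 0 ≤ d) (hd1 : d ≤ 1) :
    2 * c * d * (25200 * r + g0 c + g0 d) ≤ r ^ 3 * (P r c d + P r d c) := by
  rw [sum_eq hc hd]
  obtain ⟨s, hs⟩ : ∃ s, s = c + d := ⟨_, rfl⟩
  obtain ⟨p, hp⟩ : ∃ p, p = c * d := ⟨_, rfl⟩
  have eg : g0 c + g0 d = -(16800 * s + 6880 * (s ^ 3 - 3 * s * p)) := by
    subst hs hp; unfold g0; ring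
  have hp0 : 0 ≤ p := hp ▸ mul_nonneg hc hd
  have hp1 : p ≤ s ^ 2 / 4 := by subst hs hp; nlinarith [sq_nonneg (c - d)]
  have hs0 : 0 ≤ s := by linarith
  have hs2 : s ≤ 2 := by linarith
  have hA : 0 ≤ r ^ 3 * Ssp r s 0 := mul_nonneg (pow_nonneg hr 3) (Ssp_zero hr hs0 hs2)
  have hB : 0 ≤ r ^ 3 * Ssp r s 0 +
      (r ^ 3 * (-2 * 1480 - 880 * (2 - s ^ 2) - 1496 * r ^ 2 + 3080 * r * s) - 50400 * r +
        33600 * s + 13760 * s ^ 3) * (s ^ 2 / 4) -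
      (5280 * r ^ 3 + 41280 * s) * (s ^ 2 / 4) ^ 2 := by
    have e : r ^ 3 * Ssp r s 0 +
      (r ^ 3 * (-2 * 1480 - 880 * (2 - s ^ 2) - 1496 * r ^ 2 + 3080 * r * s) - 50400 * r +
        33600 * s + 13760 * s ^ 3) * (s ^ 2 / 4) -
      (5280 * r ^ 3 + 41280 * s) * (s ^ 2 / 4) ^ 2 = (r - s) ^ 2 *
        (8400 * s + 860 * s ^ 3 + 4200 * r + 1720 * r * s ^ 2 + 2580 * r ^ 2 * s +
          3740 * r ^ 3 - 110 * r ^ 3 * s ^ 2 + 550 * r ^ 4 * s + 1584 * r ^ 5) := by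
      unfold Ssp; ring
    rw [e]
    refine mul_nonneg (sq_nonneg _) ?_
    have h1 : r ^ 3 * s ^ 2 ≤ r ^ 2 * s + r ^ 4 * s := by
      have h3 : r ^ 3 * s ^ 2 ≤ 2 * r ^ 3 * s := by
        nlinarith [mul_nonneg (mul_nonneg (pow_nonneg hr 3) hs0) (sub_nonneg.2 hs2)]
      nlinarith [mul_nonneg (mul_nonneg (sq_nonneg r) hs0) (sq_nonneg (r - 1))]
    have : 0 ≤ r ^ 2 * s := by positivity
    have : 0 ≤ r ^ 4 * s := by positivity
    have : 0 ≤ 8400 * s + 860 * s ^ 3 + 4200 * r + 1720 * r * s ^ 2 + 3740 * r ^ 3 +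
        1584 * r ^ 5 := by positivity
    linarith
  have h := concave_ends (by positivity : 0 ≤ 5280 * r ^ 3 + 41280 * s) hp0 hp1 hA hB
  have e : r ^ 3 * Ssp r s p - 2 * p * (25200 * r + (g0 c + g0 d)) = r ^ 3 * Ssp r s 0 +
      (r ^ 3 * (-2 * 1480 - 880 * (2 - s ^ 2) - 1496 * r ^ 2 + 3080 * r * s) - 50400 * r +
        33600 * s + 13760 * s ^ 3) * p - (5280 * r ^ 3 + 41280 * s) * p ^ 2 := by
    rw [eg]; unfold Ssp; ring
  subst hs hp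
  nlinarith

/-- The gain of the diagonal terms. -/
lemma gain {R u d e : ℝ} (hu2 : u ^ 2 ≤ 1) (hd2 : d ^ 2 ≤ 1) (he : 0 ≤ e) :
    e * u ^ 2 * (1480 + 1600 * d ^ 2) ≤
      (1 - d ^ 2) * (e * (2800 + 748 * R ^ 2) - 1320 * u ^ 2 * e * (3 - 2 * e)) +
        (6 + d ^ 2) * (440 * e * u ^ 2) := by
  have a2 : 0 ≤ (1 - d ^ 2) * e := mul_nonneg (by linarith) he
  have := mul_nonneg a2 (sub_nonneg.2 hu2)
  have := mul_nonneg a2 (sq_nonneg R)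
  have := mul_nonneg (mul_nonneg a2 (sq_nonneg u)) he
  linarith

/-- The loss of the linear term. -/
lemma loss {r R u e : ℝ} (hr : 0 ≤ r) (hR : r ≤ R) (hT : (1 - e) * R ^ 2 = r ^ 2) (he : 0 ≤ e)
    (hu2 : u ^ 2 ≤ 1) :
    r * (700 - 440 * (1 - e) * u ^ 2 + 374 * R ^ 2) -
      R * (700 - 440 * u ^ 2 + 374 * R ^ 2) ≤ e * u ^ 2 * 310 := by
  have hR0 : 0 ≤ R := hr.trans hR
  rcases hR0.eq_or_lt with h0 | h0
  · have h1 : r = 0 := le_antisymm (hR.trans h0.ge) hr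
    subst h1 h0
    simp only [zero_mul, sub_zero]
    positivity
  have hrR : R - r ≤ e * R := by
    have : (1 - e) * R ≤ r := by
      refine le_of_mul_le_mul_left ?_ h0
      nlinarith [mul_nonneg hr (sub_nonneg.2 hR)]
    linarith
  have hre : r * e ≤ 2 * (R - r) := by
    refine le_of_mul_le_mul_left ?_ (pow_pos h0 2)
    have e1 : R ^ 2 * (r * e) = r * (R - r) * (R + r) := by linear_combination -r * hT
    rw [e1]
    have := mul_nonneg (sub_nonneg.2 hR) (mul_nonneg (sub_nonneg.2 hR) (add_nonneg h0.le h0.le))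
    have := mul_nonneg (sub_nonneg.2 hR) (mul_nonneg (sub_nonneg.2 hR) hr)
    nlinarith
  have hR310 : R * (620 - 374 * R ^ 2) ≤ 310 := by
    nlinarith [mul_nonneg (sq_nonneg (R - 743 / 1000)) h0.le, sq_nonneg (R - 743 / 1000)]
  have c1 : 880 * u ^ 2 - (700 - 440 * u ^ 2 + 374 * R ^ 2) ≤ u ^ 2 * (620 - 374 * R ^ 2) := by
    nlinarith [mul_nonneg (sub_nonneg.2 hu2) (sq_nonneg R)]
  have b1 : r * (700 - 440 * (1 - e) * u ^ 2 + 374 * R ^ 2) -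
      R * (700 - 440 * u ^ 2 + 374 * R ^ 2) ≤
      (R - r) * (u ^ 2 * (620 - 374 * R ^ 2)) := by
    have := mul_le_mul_of_nonneg_right hre (sq_nonneg u)
    have := mul_le_mul_of_nonneg_left c1 (sub_nonneg.2 hR)
    linarith
  refine b1.trans ?_
  rcases le_or_gt (620 - 374 * R ^ 2) 0 with hz | hz
  · exact (mul_nonpos_of_nonneg_of_nonpos (by linarith)
      (mul_nonpos_of_nonneg_of_nonpos (sq_nonneg u) hz)).trans (by positivity)
  · have d2 := mul_le_mul_of_nonneg_right hrR (mul_nonneg (sq_nonneg u) hz.le)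
    have d3 := mul_le_mul_of_nonneg_left hR310 (mul_nonneg he (sq_nonneg u))
    linarith

/-- The regularised kernel: `r ≤ R`, `T = r² / R²`, `m` the root term, `u` the positive part
of the inward cosine. -/
lemma regularise {r R T u d m : ℝ} (hr : 0 ≤ r) (hR : r ≤ R) (hT : T * R ^ 2 = r ^ 2)
    (hT0 : 0 ≤ T) (hT1 : T ≤ 1) (hu : 0 ≤ u) (hu1 : u ≤ 1) (hd : |d| ≤ 1)
    (hm : u * m ≤ u * ((2 - u ^ 2 - d ^ 2) / 2)) (hm0 : 0 ≤ m) :
    P R u d ≤ 792 * R ^ 4 + (1 - d ^ 2) * (700 - 440 * T * u ^ 2 + 374 * R ^ 2 +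
      T * (-2800 + 2640 * T * u ^ 2 - 748 * R ^ 2) - 880 * T * u ^ 2) +
      (6 + d ^ 2) * (700 - 440 * T * u ^ 2 + 374 * R ^ 2) - 880 * T * u * |d| * m -
      7 * r * d * (700 - 440 * T * u ^ 2 + 374 * R ^ 2) := by
  have hR0 : 0 ≤ R := hr.trans hR
  have hd2 : d ^ 2 ≤ 1 := (sq_le_one_iff_abs_le_one d).2 hd
  have hu2 : u ^ 2 ≤ 1 := pow_le_one₀ hu hu1
  obtain ⟨e, he, rfl⟩ : ∃ e, 0 ≤ e ∧ T = 1 - e := ⟨1 - T, by linarith, by ring⟩
  have hgain := gain (R := R) hu2 hd2 he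
  have hl := loss hr hR hT he hu2
  have hmm : (1 - e) * (880 * |d| * (u * m)) ≤ 440 * |d| * (u * (2 - u ^ 2 - d ^ 2)) := by
    have := mul_le_mul_of_nonneg_right hT1 (show 0 ≤ 880 * |d| * (u * m) by positivity)
    have := mul_le_mul_of_nonneg_left hm (show 0 ≤ 880 * |d| by positivity)
    linarith
  have hloss : 7 * r * d * (700 - 440 * (1 - e) * u ^ 2 + 374 * R ^ 2) ≤
      7 * R * max d 0 * (700 - 440 * u ^ 2 + 374 * R ^ 2) +
        e * u ^ 2 * (1480 + 1600 * d ^ 2) := by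
    rcases le_total d 0 with h | h
    · rw [max_eq_right h]
      have hW : 0 ≤ 700 - 440 * (1 - e) * u ^ 2 + 374 * R ^ 2 := by
        have := mul_le_mul hT1 hu2 (sq_nonneg u) zero_le_one
        linarith [sq_nonneg R]
      have : 7 * r * d * (700 - 440 * (1 - e) * u ^ 2 + 374 * R ^ 2) ≤ 0 :=
        mul_nonpos_of_nonpos_of_nonneg (mul_nonpos_of_nonneg_of_nonpos (by linarith) h) hW
      have : 0 ≤ e * u ^ 2 * (1480 + 1600 * d ^ 2) := by positivity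
      linarith
    · rw [max_eq_left h]
      have b3 := mul_le_mul_of_nonneg_left hl (show 0 ≤ 7 * d by linarith)
      have b4 : 2170 * d * (e * u ^ 2) ≤ (1480 + 1600 * d ^ 2) * (e * u ^ 2) :=
        mul_le_mul_of_nonneg_right (by nlinarith [sq_nonneg (40 * d - 27)]) (by positivity)
      linarith
  unfold P
  linarith

end

end Vale.Agent.P219.CH.Gen.Eight
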