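import Vale.Agent.P219.CH.Gen.Defs
import Vale.Agent.P219.CH.Cert.Moments
import Vale.Agent.P219.CH.Cert.Profile
import Vale.Agent.P219.CH.Gen.Cert.EightPoly

/-!
P219: the certificate in dimension eight, `K(r,c) = r⁻³ (1/36 - 11/630 c₊²) + 187/(12600 r)`,
`a = 11/350`, `g c = -(2/3 c + 86/315 c³)`.
-/

namespace Vale.Agent.P219.CH.Gen.Eight

open MeasureTheory Set Filter Topology Vale.Agent.P219.CH.Core
open scoped ContDiff

noncomputable section

/-- `(max p 0)²`. -/
def sqPos (p : ℝ) : ℝ := max p 0 ^ 2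

lemma hasDerivAt_sqPos (p : ℝ) : HasDerivAt sqPos (2 * max p 0) p := by
  rcases lt_trichotomy p 0 with h | h | h
  · rw [max_eq_right h.le, mul_zero]
    refine (hasDerivAt_const p (0 : ℝ)).congr_of_eventuallyEq ?_
    filter_upwards [Iio_mem_nhds h] with y hy
    simp [sqPos, max_eq_right (le_of_lt (show y < 0 from hy))]
  · subst h
    have h1 : HasDerivWithinAt sqPos 0 (Iic 0) 0 :=
      (hasDerivAt_const (0 : ℝ) (0 : ℝ)).hasDerivWithinAt.congr
        (fun y hy => by simp [sqPos, max_eq_right (show y ≤ 0 from hy)]) (by simp [sqPos])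
    have h2 : HasDerivWithinAt sqPos 0 (Ici 0) 0 := by
      have h := (hasDerivAt_pow 2 (0 : ℝ)).hasDerivWithinAt (s := Ici 0) |>.congr (f₁ := sqPos)
        (fun y hy => by simp [sqPos, max_eq_left (show 0 ≤ y from hy)]) (by simp [sqPos])
      simpa using h
    simpa [hasDerivWithinAt_univ] using h1.union h2
  · rw [max_eq_left h.le]
    refine ((hasDerivAt_pow 2 p).congr_deriv (by ring)).congr_of_eventuallyEq ?_
    filter_upwards [Ioi_mem_nhds h] with y hy
    simp [sqPos, max_eq_left (le_of_lt (show 0 < y from hy))]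

/-- A bounded continuation of `t ↦ t` beyond `1`. -/
def cap (t : ℝ) : ℝ := if t ≤ 1 then t else 1 + (t - 1) / (2 * t - 1)

lemma hasDerivAt_cap (t : ℝ) : HasDerivAt cap (1 / (2 * max t 1 - 1) ^ 2) t := by
  have hr : ∀ x, (1 : ℝ) ≤ x → HasDerivAt (fun y => 1 + (y - 1) / (2 * y - 1))
      (1 / (2 * x - 1) ^ 2) x := fun x hx => by
    have hne : 2 * x - 1 ≠ 0 := by linarith
    have h := (((hasDerivAt_id x).sub_const 1).div
      (((hasDerivAt_id x).const_mul 2).sub_const 1) hne).const_add 1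
    refine h.congr_deriv ?_
    simp only [id_eq]
    ring
  rcases lt_trichotomy t 1 with h | h | h
  · rw [max_eq_right h.le]
    refine ((hasDerivAt_id t).congr_deriv (by norm_num)).congr_of_eventuallyEq ?_
    filter_upwards [Iio_mem_nhds h] with y hy
    simp [cap, le_of_lt (show y < 1 from hy)]
  · subst h
    have h1 : HasDerivWithinAt cap 1 (Iic 1) 1 :=
      (hasDerivAt_id (1 : ℝ)).hasDerivWithinAt.congr
        (fun y hy => by simp [cap, show y ≤ 1 from hy]) (by simp [cap])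
    have h2 : HasDerivWithinAt cap 1 (Ici 1) 1 := by
      have h := ((hr 1 le_rfl).hasDerivWithinAt (s := Ici 1)).congr (f₁ := cap)
        (fun y hy => by
          rcases (show (1 : ℝ) ≤ y from hy).eq_or_lt with rfl | h'
          · simp [cap]
          · simp [cap, not_le.2 h']) (by simp [cap])
      norm_num at h
      exact h
    have h3 := h1.union h2
    rw [Iic_union_Ici, hasDerivWithinAt_univ] at h3
    rw [max_self]
    norm_num
    exact h3
  · rw [max_eq_left h.le]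
    refine (hr t h.le).congr_of_eventuallyEq ?_
    filter_upwards [Ioi_mem_nhds h] with y hy
    simp [cap, not_le.2 (show 1 < y from hy)]

lemma cap_le (t : ℝ) : cap t ≤ 3 / 2 := by
  unfold cap
  split_ifs with h
  · linarith
  · have : (t - 1) / (2 * t - 1) ≤ 1 / 2 := by
      rw [div_le_iff₀ (by linarith [not_le.1 h])]
      linarith
    linarith

lemma cap_of_le {t : ℝ} (h : t ≤ 1) : cap t = t := if_pos h

lemma contDiff_sqPos : ContDiff ℝ 1 sqPos := by
  refine contDiff_one_iff_deriv.2 ⟨fun p => (hasDerivAt_sqPos p).differentiableAt, ?_⟩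
  rw [funext fun p => (hasDerivAt_sqPos p).deriv]
  fun_prop

lemma contDiff_cap : ContDiff ℝ 1 cap := by
  refine contDiff_one_iff_deriv.2 ⟨fun p => (hasDerivAt_cap p).differentiableAt, ?_⟩
  rw [funext fun p => (hasDerivAt_cap p).deriv]
  refine continuous_const.div (by fun_prop) fun t => pow_ne_zero 2 ?_
  have := le_max_right t 1
  linarith

lemma contDiff_shift {σ : ℝ} (hσ : 0 < σ) : ContDiff ℝ 1 (Cert.shift σ) := by
  refine contDiff_one_iff_deriv.2 ⟨fun s => (Cert.hasDerivAt_shift hσ s).differentiableAt, ?_⟩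
  rw [funext fun s => (Cert.hasDerivAt_shift hσ s).deriv]
  refine (continuous_const.div (by fun_prop) fun s => ?_).pow 2
  have := le_max_right (-s) 0
  have : (0 : ℝ) < σ ^ 2 := pow_pos hσ 2
  linarith

/-- The profile `K / r` as a function of `S = r²` and `q = (r c₊)²`. -/
def core (S q : ℝ) : ℝ := ((700 - 440 * cap (q / S)) / S ^ 2 + 374 / S) / 25200

/-- The regularised field. -/
def psi (σ s p : ℝ) : ℝ := core (Cert.shift σ s) (sqPos p)

lemma contDiff_psi {σ : ℝ} (hσ : 0 < σ) : ContDiff ℝ 1 (Function.uncurry (psi σ)) := by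
  have hS : ContDiff ℝ 1 fun z : ℝ × ℝ => Cert.shift σ z.1 :=
    (contDiff_shift hσ).comp contDiff_fst
  have hq : ContDiff ℝ 1 fun z : ℝ × ℝ => sqPos z.2 := contDiff_sqPos.comp contDiff_snd
  have hne : ∀ z : ℝ × ℝ, Cert.shift σ z.1 ≠ 0 := fun z => (Cert.shift_pos hσ z.1).ne'
  have h1 : ContDiff ℝ 1 fun z : ℝ × ℝ => cap (sqPos z.2 / Cert.shift σ z.1) :=
    contDiff_cap.comp (hq.div hS hne)
  exact (((contDiff_const.sub (contDiff_const.mul h1)).div (hS.pow 2)
    fun z => pow_ne_zero 2 (hne z)).add (contDiff_const.div hS hne)).div_const _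

lemma psi_nonneg {σ : ℝ} (hσ : 0 < σ) (s p : ℝ) : 0 ≤ psi σ s p := by
  have hS := Cert.shift_pos hσ s
  have := cap_le (sqPos p / Cert.shift σ s)
  unfold psi core
  refine div_nonneg (add_nonneg (div_nonneg (by linarith) (sq_nonneg _))
    (div_nonneg (by norm_num) hS.le)) (by norm_num)

/-- The slices of `psi` at `(r², r c)`. -/
lemma psi_at {σ : ℝ} (hσ : 0 < σ) {r c : ℝ} (hr : 0 ≤ r) (hc : |c| ≤ 1) :
    psi σ (r ^ 2) (r * c) =
      ((700 - 440 * (r ^ 2 * max c 0 ^ 2 / (σ ^ 2 + r ^ 2))) / (σ ^ 2 + r ^ 2) ^ 2 +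
        374 / (σ ^ 2 + r ^ 2)) / 25200 ∧
    dS (psi σ) r c = (-1400 / (σ ^ 2 + r ^ 2) ^ 3 +
      1320 * (r ^ 2 * max c 0 ^ 2) / (σ ^ 2 + r ^ 2) ^ 4 -
      374 / (σ ^ 2 + r ^ 2) ^ 2) / 25200 ∧
    dP (psi σ) r c = -(880 * (r * max c 0) / (σ ^ 2 + r ^ 2) ^ 3) / 25200 := by
  set S := σ ^ 2 + r ^ 2 with hSdef
  have hS : 0 < S := by positivity
  have hsh : Cert.shift σ (r ^ 2) = S := Cert.shift_sq hσ r
  have hmax : max (r * c) 0 = r * max c 0 := by rw [mul_max_of_nonneg _ _ hr, mul_zero]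
  have hq : sqPos (r * c) = r ^ 2 * max c 0 ^ 2 := by rw [sqPos, hmax, mul_pow]
  have ht : r ^ 2 * max c 0 ^ 2 / S ≤ 1 := by
    rw [div_le_one hS]
    have h1 : max c 0 ^ 2 ≤ 1 :=
      pow_le_one₀ (le_max_right _ _) (max_le ((le_abs_self c).trans hc) zero_le_one)
    nlinarith [sq_nonneg σ, mul_le_mul_of_nonneg_left h1 (sq_nonneg r)]
  have hd := ((contDiff_psi hσ).differentiable one_ne_zero (r ^ 2, r * c)).hasFDerivAt
  have hcap : HasDerivAt cap 1 (r ^ 2 * max c 0 ^ 2 / S) := by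
    have := hasDerivAt_cap (r ^ 2 * max c 0 ^ 2 / S)
    rw [max_eq_right ht] at this
    norm_num at this
    exact this
  have hshift : HasDerivAt (Cert.shift σ) 1 (r ^ 2) := by
    have := Cert.hasDerivAt_shift hσ (r ^ 2)
    rwa [max_eq_right (by nlinarith), add_zero, div_self (pow_pos hσ 2).ne', one_pow] at this
  refine ⟨by rw [psi, core, hsh, hq, cap_of_le ht], ?_, ?_⟩
  · have hline : HasDerivAt (fun x : ℝ => (x, r * c)) ((1 : ℝ), (0 : ℝ)) (r ^ 2) :=
      (hasDerivAt_id (r ^ 2)).prodMk (hasDerivAt_const _ (r * c))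
    have h1 : HasDerivAt (fun x => psi σ x (r * c)) (dS (psi σ) r c) (r ^ 2) := by
      have := hd.comp_hasDerivAt (r ^ 2) hline
      exact this
    have hdiv := (hasDerivAt_const S (r ^ 2 * max c 0 ^ 2)).div (hasDerivAt_id S) hS.ne'
    have h2 : HasDerivAt (fun x => core x (r ^ 2 * max c 0 ^ 2))
        ((-1400 / S ^ 3 + 1320 * (r ^ 2 * max c 0 ^ 2) / S ^ 4 - 374 / S ^ 2) / 25200) S := by
      have := (((((hcap.comp S hdiv).const_mul 440).const_sub 700).div
        ((hasDerivAt_id S).pow 2) (pow_ne_zero 2 hS.ne')).add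
        ((hasDerivAt_const S (374 : ℝ)).div (hasDerivAt_id S) hS.ne')).div_const 25200
      refine this.congr_deriv ?_
      simp only [Function.comp_apply, Pi.pow_apply, id_eq, cap_of_le ht]
      push_cast
      field_simp
      ring
    have h3 : HasDerivAt (fun x => psi σ x (r * c))
        ((-1400 / S ^ 3 + 1320 * (r ^ 2 * max c 0 ^ 2) / S ^ 4 - 374 / S ^ 2) / 25200)
        (r ^ 2) := by
      have h := h2.comp_of_eq (r ^ 2) hshift hsh.symm
      simp only [mul_one] at h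
      unfold psi
      rw [hq]
      exact h
    exact h1.unique h3
  · have h1 : HasDerivAt (fun x => psi σ (r ^ 2) x) (dP (psi σ) r c) (r * c) :=
      hd.comp_hasDerivAt (r * c) ((hasDerivAt_const _ (r ^ 2)).prodMk (hasDerivAt_id (r * c)))
    have h3 : HasDerivAt (fun x => psi σ (r ^ 2) x)
        (-(880 * (r * max c 0) / S ^ 3) / 25200) (r * c) := by
      have hin := (hasDerivAt_sqPos (r * c)).div_const S
      have hcap' : HasDerivAt cap 1 (sqPos (r * c) / S) := by rw [hq]; exact hcap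
      have := (((((hcap'.comp (r * c) hin).const_mul 440).const_sub 700).div_const
        (S ^ 2)).add_const (374 / S)).div_const 25200
      unfold psi core
      rw [hsh]
      refine this.congr_deriv ?_
      rw [hmax]
      field_simp
      ring
    exact h1.unique h3

/-- The kernel dominates the polynomial. -/
lemma kernel_ge {σ : ℝ} (hσ : 0 < σ) {r c d : ℝ} (hr : 0 ≤ r) (hc : |c| ≤ 1) (hd : |d| ≤ 1) :
    P (Real.sqrt (σ ^ 2 + r ^ 2)) (max c 0) d ≤
      25200 * Real.sqrt (σ ^ 2 + r ^ 2) ^ 4 * kernel 8 (11 / 350) (psi σ) r c d := by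
  obtain ⟨h0, hs, hp⟩ := psi_at hσ hr hc
  set R := Real.sqrt (σ ^ 2 + r ^ 2) with hRdef
  have hS : 0 < σ ^ 2 + r ^ 2 := by positivity
  have hR0 : 0 < R := Real.sqrt_pos.2 hS
  have hR2 : σ ^ 2 + r ^ 2 = R ^ 2 := (Real.sq_sqrt hS.le).symm
  rw [hR2] at h0 hs hp
  set u := max c 0 with hu
  have hu0 : 0 ≤ u := le_max_right _ _
  have hu1 : u ≤ 1 := max_le ((le_abs_self c).trans hc) zero_le_one
  have hrR : r ≤ R := by
    rw [hRdef]; exact Real.le_sqrt_of_sq_le (by nlinarith [sq_nonneg σ])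
  set m := Real.sqrt (1 - c ^ 2) * Real.sqrt (1 - d ^ 2) with hm
  have hm0 : 0 ≤ m := mul_nonneg (Real.sqrt_nonneg _) (Real.sqrt_nonneg _)
  have hc2 : c ^ 2 ≤ 1 := (sq_le_one_iff_abs_le_one c).2 hc
  have hd2 : d ^ 2 ≤ 1 := (sq_le_one_iff_abs_le_one d).2 hd
  have hum : u * m ≤ u * ((2 - u ^ 2 - d ^ 2) / 2) := by
    rcases le_total c 0 with h | h
    · rw [hu, max_eq_right h]; simp
    · have e1 : u = c := max_eq_left h
      rw [e1]
      refine mul_le_mul_of_nonneg_left ?_ h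
      nlinarith [sq_nonneg (Real.sqrt (1 - c ^ 2) - Real.sqrt (1 - d ^ 2)),
        Real.sq_sqrt (show 0 ≤ 1 - c ^ 2 by linarith),
        Real.sq_sqrt (show 0 ≤ 1 - d ^ 2 by linarith)]
  have hT : r ^ 2 / R ^ 2 * R ^ 2 = r ^ 2 := div_mul_cancel₀ _ (pow_ne_zero 2 hR0.ne')
  have hreg := regularise hr hrR hT (by positivity)
    (div_le_one_of_le₀ (pow_le_pow_left₀ hr hrR 2) (sq_nonneg R)) hu0 hu1 hd hum hm0
  refine hreg.trans (le_of_eq ?_)
  have hab : |dP (psi σ) r c| = 880 * (r * u) / (R ^ 2) ^ 3 / 25200 := by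
    rw [hp, neg_div, abs_neg, abs_of_nonneg (by positivity)]
  have hcu : c * u = u ^ 2 := by
    rcases le_total c 0 with h | h
    · simp [hu, max_eq_right h]
    · simp [hu, max_eq_left h, sq]
  rw [kernel, geom, hab, h0, hs, hp, mul_assoc _ (Real.sqrt (1 - c ^ 2)), ← hm]
  push_cast
  field_simp
  linear_combination ((308000 * R ^ 2 * r ^ 2 * (1 - d ^ 2))) * hcu

/-- The end weight. -/
def g (c : ℝ) : ℝ := g0 c / 25200

lemma g_nonpos {c : ℝ} (hc : 0 ≤ c) : g c ≤ 0 := by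
  unfold g g0
  exact div_nonpos_of_nonpos_of_nonneg (neg_nonpos.2 (by positivity)) (by norm_num)

lemma kernel_nonneg {σ : ℝ} (hσ : 0 < σ) {r c d : ℝ} (hr : 0 ≤ r) (hc : |c| ≤ 1)
    (hd : |d| ≤ 1) :
    0 ≤ kernel 8 (11 / 350) (psi σ) r c d + kernel 8 (11 / 350) (psi σ) r d c := by
  have hR : 0 < Real.sqrt (σ ^ 2 + r ^ 2) := Real.sqrt_pos.2 (by positivity)
  have h := sum_nonneg' hR.le hc hd
  have h1 := kernel_ge hσ hr hc hd
  have h2 := kernel_ge hσ hr hd hc
  exact nonneg_of_mul_nonneg_right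
    (show 0 ≤ 25200 * Real.sqrt (σ ^ 2 + r ^ 2) ^ 4 *
      (kernel 8 (11 / 350) (psi σ) r c d + kernel 8 (11 / 350) (psi σ) r d c) by linarith)
    (by positivity)

lemma pair_reg {σ : ℝ} (hσ : 0 < σ) {r c d : ℝ} (hr : 0 < r) (hc : 0 < c) (hc1 : c ≤ 1)
    (hd : 0 < d) (hd1 : d ≤ 1) :
    r - 7 * σ + g c + g d ≤ r ^ (8 - 1) *
      (kernel 8 (11 / 350) (psi σ) r c d + kernel 8 (11 / 350) (psi σ) r d c) / (2 * c * d) := by
  have hac : |c| ≤ 1 := by rwa [abs_of_pos hc]
  have had : |d| ≤ 1 := by rwa [abs_of_pos hd]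
  set k := kernel 8 (11 / 350) (psi σ) r c d + kernel 8 (11 / 350) (psi σ) r d c
  have hk : 0 ≤ k := kernel_nonneg hσ hr.le hac had
  set R := Real.sqrt (σ ^ 2 + r ^ 2) with hR
  have hR0 : 0 < R := Real.sqrt_pos.2 (by positivity)
  have hrR : r ≤ R := by rw [hR]; exact Real.le_sqrt_of_sq_le (by nlinarith [sq_nonneg σ])
  have hRσ : R ≤ r + σ := by
    rw [hR]; exact (Real.sqrt_le_iff).2 ⟨by linarith, by nlinarith⟩
  have h1 : 2 * c * d * (R + g c + g d) ≤ R ^ 7 * k := by
    have hp := pair hR0.le hc.le hc1 hd.le hd1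
    have h1 := kernel_ge hσ hr.le hac had
    have h2 := kernel_ge hσ hr.le had hac
    rw [← hR, max_eq_left hc.le] at h1
    rw [← hR, max_eq_left hd.le] at h2
    have h3 := mul_le_mul_of_nonneg_left (add_le_add h1 h2) (pow_nonneg hR0.le 3)
    have e : R ^ 3 * (25200 * R ^ 4 * kernel 8 (11 / 350) (psi σ) r c d +
        25200 * R ^ 4 * kernel 8 (11 / 350) (psi σ) r d c) = 25200 * (R ^ 7 * k) := by ring
    rw [e] at h3
    unfold g
    linarith
  rw [le_div_iff₀ (by positivity), show (8 - 1 : ℕ) = 7 from rfl]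
  set Y := R + g c + g d with hY
  rcases le_or_gt Y 0 with h | h
  · exact (mul_nonpos_of_nonpos_of_nonneg (by linarith) (by positivity)).trans
      (mul_nonneg (by positivity) hk)
  have hx1 : r / R ≤ 1 := (div_le_one hR0).2 hrR
  have hbern : 1 + 7 * (r / R - 1) ≤ (r / R) ^ 7 := by
    have := one_add_mul_le_pow (a := r / R - 1) (by linarith [div_nonneg hr.le hR0.le]) 7
    simpa using this
  have hYR : Y ≤ R := by linarith [g_nonpos hc.le, g_nonpos hd.le]
  have h4 : r - 7 * σ + g c + g d ≤ (r / R) ^ 7 * Y := by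
    have a1 : (1 + 7 * (r / R - 1)) * Y ≤ (r / R) ^ 7 * Y :=
      mul_le_mul_of_nonneg_right hbern h.le
    have a2 : (1 - r / R) * Y ≤ (1 - r / R) * R :=
      mul_le_mul_of_nonneg_left hYR (by linarith)
    have a3 : (1 - r / R) * R = R - r := by field_simp
    linarith
  calc (r - 7 * σ + g c + g d) * (2 * c * d)
      ≤ (r / R) ^ 7 * Y * (2 * c * d) := mul_le_mul_of_nonneg_right h4 (by positivity)
    _ = (r / R) ^ 7 * (2 * c * d * Y) := by ring
    _ ≤ (r / R) ^ 7 * (R ^ 7 * k) := mul_le_mul_of_nonneg_left h1 (by positivity)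
    _ = r ^ 7 * k := by rw [← mul_assoc, ← mul_pow, div_mul_cancel₀ _ hR0.ne']

lemma balance : ∀ hn : 0 < 8, 11 / 350 * ((8 : ℕ) : ℝ) * omega 8 =
    omega 8 + 2 * ((8 : ℕ) : ℝ) * gInt hn g := by
  intro hn
  set i : Fin 8 := ⟨0, hn⟩
  have e : (fun v : E 8 => g (v i / ‖v‖) * (v i / ‖v‖)) =
      fun v => -(2 / 3) * Cert.cosc i v ^ 2 + -(86 / 315) * Cert.cosc i v ^ 4 := by
    funext v; simp only [g, g0, Cert.cosc]; ring
  have p2 : IntegrableOn (fun v => -(2 / 3 : ℝ) * Cert.cosc i v ^ 2) (Metric.ball (0 : E 8) 1) :=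
    (Cert.integrableOn_ball (Cert.measurable_pow_cosc i 2) (Cert.bound_pow_cosc i 2)).const_mul _
  have p4 : IntegrableOn (fun v => -(86 / 315 : ℝ) * Cert.cosc i v ^ 4)
      (Metric.ball (0 : E 8) 1) :=
    (Cert.integrableOn_ball (Cert.measurable_pow_cosc i 4) (Cert.bound_pow_cosc i 4)).const_mul _
  have p24 : IntegrableOn (fun v => -(2 / 3 : ℝ) * Cert.cosc i v ^ 2 +
      -(86 / 315 : ℝ) * Cert.cosc i v ^ 4) (Metric.ball (0 : E 8) 1) := p2.add p4
  rw [gInt, e, Cert.integral_half hn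
    (fun v => by simp only [Cert.cosc, PiLp.neg_apply, norm_neg]; ring) p24,
    integral_add p2 p4, integral_const_mul, integral_const_mul, Cert.cosc_two hn,
    Cert.cosc_four hn]
  push_cast
  ring

end

end Vale.Agent.P219.CH.Gen.Eight

namespace Vale.Agent.P219.CH.Gen

/-- The certificate in dimension eight. -/
noncomputable def cert8 : Cert 8 where
  a := 11 / 350
  a_nonneg := by norm_num
  g := Eight.g
  g_cont := by unfold Eight.g Eight.g0; fun_prop
  g_nonpos c hc := Eight.g_nonpos hc.1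
  approx σ hσ := ⟨Eight.psi (σ / 7), Eight.contDiff_psi (by positivity),
    fun s p _ => Eight.psi_nonneg (by positivity) s p,
    fun r c d hr hc hd => Eight.kernel_nonneg (by positivity) hr hc hd,
    fun r c d hr hc hc1 hd hd1 => by
      have := Eight.pair_reg (σ := σ / 7) (by positivity) hr hc hc1 hd hd1
      rwa [mul_div_cancel₀ _ (by norm_num : (7 : ℝ) ≠ 0)] at this⟩
  balance := Eight.balance

end Vale.Agent.P219.CH.Gen
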