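import Vale.Agent.P219.CH.Gen.Cert.NineCert
import Vale.Agent.P219.CH.Gen.Cert.EightPoly

/-!
P219: the inequalities behind the certificate in dimension nine, everything scaled by
`3024000 (r + 2)⁴`. The pair inequality: the end weight is concave, the gap is concave in
`p = c d` for fixed `s = c + d`, and on the diagonal it is `2 (r - 2 m)²` times a positive
polynomial over `(1 + m)⁴`.
-/

namespace Vale.Agent.P219.CH.Gen.Nine

open Set

noncomputable section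

/-- The kernel, with the square roots replaced by their mean. -/
def P (r u d : ℝ) : ℝ :=
  79600 * r ^ 5 * q4 r + 8 * (f0 r - q4 r * bb r * u ^ 2) - (X0 r - q4 r * b5 r * u ^ 2) +
    d ^ 2 * (X0 r - q4 r * b5 r * u ^ 2) - 8 * r * max d 0 * (f0 r - q4 r * bb r * u ^ 2) -
    q4 r * (u * |d| * bb r * (2 - u ^ 2 - d ^ 2))

/-- The coefficient of `p` in the symmetrised kernel. -/
def Bp (r s : ℝ) : ℝ :=
  -2 * S2 r + q4 r * (8 * r * bb r * s) - 2 * q4 r * bb r * (2 - s ^ 2)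

/-- The symmetrised kernel in `s = c + d`, `p = c d`. -/
def Ssp (r s p : ℝ) : ℝ :=
  A0 r + S2 r * s ^ 2 - K1 r * s + Bp r s * p - C2 r * p ^ 2

lemma sum_eq {r c d : ℝ} (hc : 0 ≤ c) (hd : 0 ≤ d) :
    P r c d + P r d c = Ssp r (c + d) (c * d) := by
  unfold P Ssp Bp A0 S2 K1 C2
  rw [abs_of_nonneg hc, abs_of_nonneg hd, max_eq_left hc, max_eq_left hd]
  ring

lemma q4_pos {r : ℝ} (hr : 0 ≤ r) : 0 < q4 r := by unfold q4; positivity

lemma bb_pos {r : ℝ} (hr : 0 ≤ r) : 0 < bb r := by unfold bb; positivity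

lemma b5_nonneg {r : ℝ} (hr : 0 ≤ r) : 0 ≤ b5 r := by unfold b5; positivity

lemma b5_le {r : ℝ} (hr : 0 ≤ r) : b5 r ≤ 5 * bb r := by unfold b5 bb; linarith

lemma f0_nonneg {r : ℝ} (hr : 0 ≤ r) : 0 ≤ f0 r := by unfold f0; positivity

lemma X0_nonneg {r : ℝ} (hr : 0 ≤ r) : 0 ≤ X0 r := by unfold X0; positivity

lemma C2_nonneg {r : ℝ} (hr : 0 ≤ r) : 0 ≤ C2 r := by
  have := q4_pos hr; have := bb_pos hr; have := b5_nonneg hr
  unfold C2; positivity

lemma f1_nonneg {r : ℝ} (hr : 0 ≤ r) {u : ℝ} (hu : u ≤ 1001 / 1000) :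
    0 ≤ f0 r - q4 r * bb r * u := by
  have := f1_ge hr
  have := mul_le_mul_of_nonneg_left hu (mul_pos (q4_pos hr) (bb_pos hr)).le
  linarith

lemma Xu_nonneg {r : ℝ} (hr : 0 ≤ r) {u : ℝ} (hu : u ≤ 1) : 0 ≤ X0 r - q4 r * b5 r * u := by
  have := X1_nonneg hr
  have := mul_le_mul_of_nonneg_left hu (mul_nonneg (q4_pos hr).le (b5_nonneg hr))
  linarith

lemma small_end {r s : ℝ} (hr : 0 ≤ r) (hs : 0 ≤ s) (hs1 : s ≤ 1) :
    q4 r * bb r / 2 ≤ A0 r + S2 r * s ^ 2 - K1 r * s := by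
  obtain ⟨z, hz, h1⟩ : ∃ z, 0 ≤ z ∧ s + z = 1 := ⟨1 - s, by linarith, by ring⟩
  have t0 := mul_nonneg (m0_nonneg hr) (sq_nonneg s)
  have t1 := mul_nonneg (m1_nonneg hr) (mul_nonneg hs hz)
  have t2 := mul_nonneg (m2_nonneg hr) (sq_nonneg z)
  have e : A0 r + S2 r * s ^ 2 - K1 r * s - q4 r * bb r / 2 =
      (A0 r + S2 r - K1 r - q4 r * bb r / 2) * s ^ 2 +
      (2 * A0 r - K1 r - q4 r * bb r) * (s * z) + (A0 r - q4 r * bb r / 2) * z ^ 2 := by
    obtain rfl : z = 1 - s := by linarith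
    ring
  linarith

lemma large_end {r s : ℝ} (hr : 0 ≤ r) (hs : 1 ≤ s) (hs2 : s ≤ 2) :
    0 ≤ A0 r + S2 r * s ^ 2 - K1 r * s + C2 r * ((s - 1) * (s ^ 2 / 4)) := by
  obtain ⟨x, hx, rfl⟩ : ∃ x, 0 ≤ x ∧ s = 1 + x := ⟨s - 1, by linarith, by ring⟩
  have hz : 0 ≤ 1 - x := by linarith
  have t0 := mul_nonneg (q0_nonneg hr) (pow_nonneg hx 3)
  have t1 := mul_nonneg (q1_nonneg hr) (mul_nonneg (pow_nonneg hx 2) hz)
  have t2 := mul_nonneg (q2_nonneg hr) (mul_nonneg hx (pow_nonneg hz 2))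
  have t3 := mul_nonneg (q3_nonneg hr) (pow_nonneg hz 3)
  linarith

lemma diag_nonneg {r m : ℝ} (hr : 0 ≤ r) (hm : 0 ≤ m) (hm1 : m ≤ 1) :
    0 ≤ Ssp r (2 * m) (m ^ 2) := by
  obtain ⟨z, hz, rfl⟩ : ∃ z, 0 ≤ z ∧ m = 1 - z := ⟨1 - m, by linarith, by ring⟩
  have e : Ssp r (2 * (1 - z)) ((1 - z) ^ 2) = 2 * (d0 r * (1 - z) ^ 4 +
      d1 r * (1 - z) ^ 3 * z + d2 r * (1 - z) ^ 2 * z ^ 2 + d3 r * (1 - z) * z ^ 3 +
      d4 r * z ^ 4) := by
    simp only [Ssp, Bp, A0, S2, K1, C2, f0, X0, q4, bb, b5, d0, d1, d2, d3, d4]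
    ring
  rw [e]
  have t3 := mul_nonneg (mul_nonneg (d3_nonneg hr) hm) (pow_nonneg hz 3)
  have t4 := mul_nonneg (d4_nonneg hr) (pow_nonneg hz 4)
  rcases le_total r 2 with h | h
  · have t0 := mul_nonneg (mul_nonneg (d0_nonneg hr) (sq_nonneg (1 - z)))
      (sq_nonneg (1 - z - 2 * r * z))
    have t1 := mul_nonneg (d1_lo hr h) (mul_nonneg (pow_nonneg hm 3) hz)
    have t2 := mul_nonneg (d2_lo hr h) (mul_nonneg (sq_nonneg (1 - z)) (sq_nonneg z))
    linarith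
  · have t0 := mul_nonneg (d0_nonneg hr) (pow_nonneg hm 4)
    have t1 := mul_nonneg (d1_hi h) (mul_nonneg (pow_nonneg hm 3) hz)
    have t2 := mul_nonneg (d2_hi h) (mul_nonneg (sq_nonneg (1 - z)) (sq_nonneg z))
    linarith

/-- The lowering by the linearisation is nonnegative. -/
lemma lin_ends {A B C p M s : ℝ} (hC : 0 ≤ C) (hp : 0 ≤ p) (hsp : s - 1 ≤ p) (hpM : p ≤ M)
    (h0 : 0 ≤ A + C * ((s - 1) * M)) (h1 : 0 ≤ A + B * M - C * M ^ 2) :
    0 ≤ A + B * p - C * p ^ 2 := by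
  rcases (hp.trans hpM).eq_or_lt with h | h
  · have : p = M := le_antisymm hpM (h ▸ hp)
    subst this; exact h1
  refine nonneg_of_mul_nonneg_right (b := A + B * p - C * p ^ 2) ?_ h
  have e : M * (A + B * p - C * p ^ 2) = (M - p) * (A + C * ((s - 1) * M)) +
      p * (A + B * M - C * M ^ 2) + M * C * ((p - (s - 1)) * (M - p)) := by ring
  rw [e]
  have := mul_nonneg (sub_nonneg.2 hpM) h0
  have := mul_nonneg hp h1
  have := mul_nonneg (mul_nonneg h.le hC) (mul_nonneg (sub_nonneg.2 hsp) (sub_nonneg.2 hpM))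
  linarith

lemma cd_bounds {c d : ℝ} (hc : 0 ≤ c) (hc1 : c ≤ 1) (hd : 0 ≤ d) (hd1 : d ≤ 1) :
    0 ≤ c * d ∧ c + d - 1 ≤ c * d ∧ c * d ≤ ((c + d) / 2) ^ 2 :=
  ⟨mul_nonneg hc hd, by nlinarith [mul_nonneg (sub_nonneg.2 hc1) (sub_nonneg.2 hd1)],
    by nlinarith [sq_nonneg (c - d)]⟩

lemma Ssp_nonneg {r c d : ℝ} (hr : 0 ≤ r) (hc : 0 ≤ c) (hc1 : c ≤ 1) (hd : 0 ≤ d)
    (hd1 : d ≤ 1) : 0 ≤ Ssp r (c + d) (c * d) := by
  obtain ⟨hp, hsp, hpM⟩ := cd_bounds hc hc1 hd hd1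
  have h1 := diag_nonneg hr (show 0 ≤ (c + d) / 2 by linarith) (by linarith)
  rw [mul_div_cancel₀ _ (two_ne_zero' ℝ)] at h1
  unfold Ssp at h1 ⊢
  rcases le_total (c + d) 1 with h | h
  · have := small_end hr (by linarith) h
    have := mul_pos (q4_pos hr) (bb_pos hr)
    exact Eight.concave_ends (C2_nonneg hr) hp hpM (by linarith) h1
  · have := large_end hr h (by linarith)
    exact lin_ends (C2_nonneg hr) hp hsp hpM (by linarith) h1

lemma mixed {r c d : ℝ} (hr : 0 ≤ r) (hc : 0 ≤ c) (hc1 : c ≤ 1) (hd : d ≤ 0) (hd1 : -1 ≤ d) :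
    0 ≤ P r c d + P r 0 c := by
  have h0 := small_end hr hc hc1
  have hc2 : c ^ 2 ≤ 1 := pow_le_one₀ hc hc1
  have hX := mul_nonneg (sq_nonneg d) (Xu_nonneg hr hc2)
  have hk : c * -d * (2 - c ^ 2 - d ^ 2) ≤ 1 / 2 := by
    have hd2 : d ^ 2 ≤ 1 := by nlinarith
    have t1 := mul_le_mul_of_nonneg_right
      (show c * -d ≤ (c ^ 2 + d ^ 2) / 2 by nlinarith [sq_nonneg (c + d)])
      (show 0 ≤ 2 - c ^ 2 - d ^ 2 by linarith)
    nlinarith [sq_nonneg (c ^ 2 + d ^ 2 - 1)]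
  have hk' := mul_le_mul_of_nonneg_left hk (mul_pos (q4_pos hr) (bb_pos hr)).le
  unfold P
  rw [abs_of_nonpos hd, max_eq_right hd, max_eq_left hc, abs_of_nonneg hc]
  unfold A0 S2 K1 at h0
  linarith

lemma sum_nonneg' {r c d : ℝ} (hr : 0 ≤ r) (hc : |c| ≤ 1) (hd : |d| ≤ 1) :
    0 ≤ P r (max c 0) d + P r (max d 0) c := by
  rw [abs_le] at hc hd
  rcases le_total 0 c with h | h <;> rcases le_total 0 d with h' | h'
  · rw [max_eq_left h, max_eq_left h', sum_eq h h']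
    exact Ssp_nonneg hr h hc.2 h' hd.2
  · rw [max_eq_left h, max_eq_right h']
    exact mixed hr h hc.2 h' hd.1
  · rw [max_eq_right h, max_eq_left h', add_comm]
    exact mixed hr h' hd.2 h hc.1
  · rw [max_eq_right h, max_eq_right h']
    unfold P
    rw [max_eq_right h, max_eq_right h']
    have := neg_nonneg hr
    have := mul_nonneg (sq_nonneg c) (X0_nonneg hr)
    have := mul_nonneg (sq_nonneg d) (X0_nonneg hr)
    have := mul_nonneg (pow_nonneg hr 5) (q4_pos hr).le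
    linarith

/-- The numerator of the rational part of the end weight. -/
def gA (t : ℝ) : ℝ :=
  969600 * t + 1047168 * t ^ 2 - 3063936 * t ^ 3 - 5158272 * t ^ 4 - 2068480 * t ^ 5

/-- The polynomial part of the end weight. -/
def gG (t : ℝ) : ℝ :=
  -2985600 * t + 1861632 * t ^ 2 - 650400 * t ^ 3 - 1081344 * t ^ 4 + 1324960 * t ^ 5 -
    319488 * t ^ 6

/-- The end weight, times `3024000`. -/
def g0 (t : ℝ) : ℝ := gA t / (1 + t) ^ 3 + gG t

lemma g0_nonpos {t : ℝ} (ht : 0 ≤ t) (ht1 : t ≤ 1) : g0 t ≤ 0 := by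
  have h1 : 0 ≤ 1 - t := by linarith
  have e : gA t + gG t * (1 + t) ^ 3 = -((1 - t) * (2016000 * t + 8064000 * t ^ 2 +
      15150240 * t ^ 3 + 20741760 * t ^ 4 + 24818880 * t ^ 5 + 25057920 * t ^ 6 +
      23122848 * t ^ 7 + 22756352 * t ^ 8) + 23075840 * t ^ 9) := by
    unfold gA gG; ring
  have h : g0 t = (gA t + gG t * (1 + t) ^ 3) / (1 + t) ^ 3 := by
    unfold g0; field_simp
  rw [h, e]
  exact div_nonpos_of_nonpos_of_nonneg (neg_nonpos.2 (by positivity)) (by positivity)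

lemma gnum2_nonpos {t : ℝ} (ht : 0 ≤ t) (ht1 : t ≤ 1) :
    -6229440 * t - 36676800 * t ^ 2 - 81542400 * t ^ 3 - 47942400 * t ^ 4 + 67381824 * t ^ 5 +
      100362560 * t ^ 6 + 23673472 * t ^ 7 - 21424000 * t ^ 8 - 9584640 * t ^ 9 ≤ 0 := by
  have hh : 0 ≤ 1 - t := by linarith
  have k : t ^ 3 * (23673472 - 21424000 * t) ≤ 4646656 := by
    nlinarith [mul_nonneg (pow_nonneg ht 2) (sq_nonneg (t - 829 / 1000)),
      sq_nonneg (t - 829 / 1000), mul_nonneg ht (sq_nonneg (t - 829 / 1000))]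
  have := mul_le_mul_of_nonneg_left k (pow_nonneg ht 4)
  have := mul_nonneg ht (mul_nonneg hh (show 0 ≤ 6229440 + 42906240 * t + 124448640 * t ^ 2 +
    172391040 * t ^ 3 + 105009216 * t ^ 4 + 4646656 * t ^ 5 by positivity))
  have : 0 ≤ t ^ 6 * (1 - t) * 4646656 := by positivity
  have : 0 ≤ t ^ 9 * 9584640 := by positivity
  nlinarith

lemma concaveOn_g0 : ConcaveOn ℝ (Icc (0 : ℝ) 1) g0 := by
  have hA : ∀ t : ℝ, HasDerivAt gA
      (969600 + 2094336 * t - 9191808 * t ^ 2 - 20633088 * t ^ 3 - 10342400 * t ^ 4) t :=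
    fun t => ((((((hasDerivAt_id t).const_mul 969600).add
      ((hasDerivAt_pow 2 t).const_mul 1047168)).sub ((hasDerivAt_pow 3 t).const_mul 3063936)).sub
      ((hasDerivAt_pow 4 t).const_mul 5158272)).sub
      ((hasDerivAt_pow 5 t).const_mul 2068480)).congr_deriv (by push_cast; ring)
  have hA' : ∀ t : ℝ, HasDerivAt
      (fun t => 969600 + 2094336 * t - 9191808 * t ^ 2 - 20633088 * t ^ 3 - 10342400 * t ^ 4)
      (2094336 - 18383616 * t - 61899264 * t ^ 2 - 41369600 * t ^ 3) t :=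
    fun t => ((((((hasDerivAt_id t).const_mul 2094336).const_add 969600)).sub
      ((hasDerivAt_pow 2 t).const_mul 9191808)).sub ((hasDerivAt_pow 3 t).const_mul 20633088)).sub
      ((hasDerivAt_pow 4 t).const_mul 10342400) |>.congr_deriv (by push_cast; ring)
  have hG : ∀ t : ℝ, HasDerivAt gG (-2985600 + 3723264 * t - 1951200 * t ^ 2 -
      4325376 * t ^ 3 + 6624800 * t ^ 4 - 1916928 * t ^ 5) t :=
    fun t => (((((((hasDerivAt_id t).const_mul (-2985600)).add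
      ((hasDerivAt_pow 2 t).const_mul 1861632)).sub ((hasDerivAt_pow 3 t).const_mul 650400)).sub
      ((hasDerivAt_pow 4 t).const_mul 1081344)).add ((hasDerivAt_pow 5 t).const_mul 1324960)).sub
      ((hasDerivAt_pow 6 t).const_mul 319488)).congr_deriv (by push_cast; ring)
  have hG' : ∀ t : ℝ, HasDerivAt (fun t => -2985600 + 3723264 * t - 1951200 * t ^ 2 -
      4325376 * t ^ 3 + 6624800 * t ^ 4 - 1916928 * t ^ 5)
      (3723264 - 3902400 * t - 12976128 * t ^ 2 + 26499200 * t ^ 3 - 9584640 * t ^ 4) t :=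
    fun t => ((((((hasDerivAt_id t).const_mul 3723264).const_add (-2985600)).sub
      ((hasDerivAt_pow 2 t).const_mul 1951200)).sub ((hasDerivAt_pow 3 t).const_mul 4325376)).add
      ((hasDerivAt_pow 4 t).const_mul 6624800)).sub ((hasDerivAt_pow 5 t).const_mul 1916928)
      |>.congr_deriv (by push_cast; ring)
  refine concaveOn_of_hasDerivWithinAt2_nonpos (convex_Icc 0 1)
    (f' := fun t => ((969600 + 2094336 * t - 9191808 * t ^ 2 - 20633088 * t ^ 3 -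
      10342400 * t ^ 4) * (1 + t) - 3 * gA t) / (1 + t) ^ 4 + (-2985600 + 3723264 * t -
      1951200 * t ^ 2 - 4325376 * t ^ 3 + 6624800 * t ^ 4 - 1916928 * t ^ 5))
    (f'' := fun t => (-6229440 * t - 36676800 * t ^ 2 - 81542400 * t ^ 3 - 47942400 * t ^ 4 +
      67381824 * t ^ 5 + 100362560 * t ^ 6 + 23673472 * t ^ 7 - 21424000 * t ^ 8 -
      9584640 * t ^ 9) / (1 + t) ^ 5) ?_ ?_ ?_ ?_
  · intro t ht
    have hne : 1 + t ≠ 0 := by linarith [ht.1]
    exact (((hA t).continuousAt.div ((continuousAt_const.add continuousAt_id).pow 3)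
      (pow_ne_zero 3 hne)).add
      (hG t).continuousAt).continuousWithinAt
  all_goals rw [interior_Icc]; intro t ht
  all_goals have h0 : 0 < 1 + t := by linarith [ht.1]
  · refine ((((hA t).div (((hasDerivAt_id t).const_add 1).pow 3) (pow_ne_zero 3 h0.ne')).add
      (hG t)).congr_deriv ?_).hasDerivWithinAt
    simp only [id_eq, Pi.pow_apply]
    push_cast
    field_simp
  · refine (((((((hA' t).mul ((hasDerivAt_id t).const_add 1)).sub ((hA t).const_mul 3)).div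
      (((hasDerivAt_id t).const_add 1).pow 4) (pow_ne_zero 4 h0.ne')).add (hG' t))).congr_deriv
      ?_).hasDerivWithinAt
    simp only [id_eq, Pi.pow_apply, Pi.mul_apply, Pi.sub_apply, gA]
    push_cast
    field_simp
    ring
  · exact div_nonpos_of_nonpos_of_nonneg (gnum2_nonpos ht.1.le ht.2.le) (by positivity)

/-- The quotient of the pair gap on the diagonal by `(r - 2m)²`. -/
def EE (r m : ℝ) : ℝ :=
  ((1 - m) * (16128000 * m ^ 1 + 80640000 * m ^ 2 + 185713920 * m ^ 3 + 287136000 * m ^ 4 +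
        364485120 * m ^ 5 + 399014400 * m ^ 6 + 385446144 * m ^ 7 + 367033600 * m ^ 8 +
        366657536 * m ^ 9) + 369213440 * m ^ 10) +
    r ^ 1 * ((1 - m) * (4032000 + 52416000 * m ^ 1 + 213937920 * m ^ 2 + 477123840 * m ^ 3 +
          745221120 * m ^ 4 +
        934448640 * m ^ 5 + 989938944 * m ^ 6 + 944389888 * m ^ 7 + 907188736 * m ^ 8 +
        908992512 * m ^ 9) + 914104320 * m ^ 10) +
    r ^ 2 * ((1 - m) * (8064000 + 70741440 * m ^ 1 + 260187840 * m ^ 2 + 569790720 * m ^ 3 +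
          878327040 * m ^ 4 +
        1053233088 * m ^ 5 + 1064081088 * m ^ 6 + 1006621568 * m ^ 7 + 980167552 * m ^ 8 +
        984715264 * m ^ 9) + 988549120 * m ^ 10) +
    r ^ 3 * ((1 - m) * (10293360 + 73832880 * m ^ 1 + 240413280 * m ^ 2 + 478163040 * m ^ 3 +
        666140592 * m ^ 4 + 723240176 * m ^ 5 + 691393024 * m ^ 6 + 657703936 * m ^ 7 +
        651767424 * m ^ 8 + 655413248 * m ^ 9) + 656691200 * m ^ 10) +
    r ^ 4 * ((1 - m) * (10967520 + 69413760 * m ^ 1 + 194024160 * m ^ 2 + 322635600 * m ^ 3 +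
        374155184 * m ^ 4 + 355505312 * m ^ 5 + 328452288 * m ^ 6 + 320530832 * m ^ 7 +
        322067408 * m ^ 8 + 323321856 * m ^ 9) + 323481600 * m ^ 10) +
    r ^ 5 * ((1 - m) * (9374184 + 53134440 * m ^ 1 + 129760896 * m ^ 2 + 184630560 * m ^ 3 +
          185249320 * m ^ 4 +
        165061928 * m ^ 5 + 156734960 * m ^ 6 + 157360080 * m ^ 7 + 158295040 * m ^ 8) +
          158454784 * m ^ 9) +
    r ^ 6 * ((1 - m) * (6459768 + 34459092 * m ^ 1 + 79990492 * m ^ 2 + 111460328 * m ^ 3 +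
          116040080 * m ^ 4 +
        112059396 * m ^ 5 + 111478492 * m ^ 6 + 112099840 * m ^ 7) + 112219648 * m ^ 8) +
    r ^ 7 * ((1 - m) * (4086063 + 21593899 * m ^ 1 + 50657998 * m ^ 2 + 73637166 * m ^ 3 +
          82057363 * m ^ 4 +
        83273719 * m ^ 5 + 83486592 * m ^ 6) + 83566464 * m ^ 7) +
    r ^ 8 * ((1 - m) * (2094336 + 10949096 * m ^ 1 + 25460296 * m ^ 2 + 36844216 * m ^ 3 +
          41061336 * m ^ 4 +
        41680832 * m ^ 5) + 41716352 * m ^ 6) +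
    r ^ 9 * ((1 - m) * (636800 + 3257152 * m ^ 1 + 7370560 * m ^ 2 + 10356672 * m ^ 3 +
          11286080 * m ^ 4) + 11359232 * m ^ 5) +
    r ^ 10 * ((1 - m) * (79600 + 398000 * m ^ 1 + 875600 * m ^ 2 + 1194000 * m ^ 3) +
          1273600 * m ^ 4)

lemma EE_nonneg {r m : ℝ} (hr : 0 ≤ r) (hm : 0 ≤ m) (hm1 : m ≤ 1) : 0 ≤ EE r m := by
  have h1 : 0 ≤ 1 - m := by linarith
  unfold EE
  positivity

lemma diag_pair {r m : ℝ} (hr : 0 ≤ r) (hm : 0 ≤ m) (hm1 : m ≤ 1) :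
    0 ≤ r ^ 3 * Ssp r (2 * m) (m ^ 2) - 2 * m ^ 2 * (q4 r * (3024000 * r + 2 * g0 m)) := by
  have h1 : (0 : ℝ) < (1 + m) ^ 4 := by positivity
  refine nonneg_of_mul_nonneg_right (b := r ^ 3 * Ssp r (2 * m) (m ^ 2) -
    2 * m ^ 2 * (q4 r * (3024000 * r + 2 * g0 m))) ?_ h1
  have h2 : g0 m * (1 + m) ^ 4 = gA m * (1 + m) + gG m * (1 + m) ^ 4 := by
    unfold g0; field_simp
  have e : (1 + m) ^ 4 * (r ^ 3 * Ssp r (2 * m) (m ^ 2)) - 2 * m ^ 2 * (q4 r *
      (3024000 * r * (1 + m) ^ 4 + 2 * (gA m * (1 + m) + gG m * (1 + m) ^ 4))) =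
      2 * (r - 2 * m) ^ 2 * EE r m := by
    simp only [Ssp, Bp, A0, S2, K1, C2, f0, X0, q4, bb, b5, gA, gG, EE]
    ring
  have := mul_nonneg (mul_nonneg zero_le_two (sq_nonneg (r - 2 * m))) (EE_nonneg hr hm hm1)
  rw [← h2] at e
  linarith

/-- The pair inequality. -/
theorem pair {r c d : ℝ} (hr : 0 ≤ r) (hc : 0 ≤ c) (hc1 : c ≤ 1) (hd : 0 ≤ d) (hd1 : d ≤ 1) :
    2 * c * d * (q4 r * (3024000 * r + g0 c + g0 d)) ≤ r ^ 3 * (P r c d + P r d c) := by
  rw [sum_eq hc hd]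
  obtain ⟨hp, hsp, hpM⟩ := cd_bounds hc hc1 hd hd1
  set m := (c + d) / 2 with hm
  have hm0 : 0 ≤ m := by rw [hm]; linarith
  have hm1 : m ≤ 1 := by rw [hm]; linarith
  have hs : c + d = 2 * m := by rw [hm]; ring
  have hjen : g0 c + g0 d ≤ 2 * g0 m := by
    have := concaveOn_g0.2 (show c ∈ Icc (0 : ℝ) 1 from ⟨hc, hc1⟩)
      (show d ∈ Icc (0 : ℝ) 1 from ⟨hd, hd1⟩) (by norm_num : (0 : ℝ) ≤ 1 / 2)
      (by norm_num : (0 : ℝ) ≤ 1 / 2) (by norm_num)
    simp only [smul_eq_mul] at this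
    rw [show 1 / 2 * c + 1 / 2 * d = m by rw [hm]; ring] at this
    linarith
  have hj := mul_le_mul_of_nonneg_left hjen (mul_nonneg hp (q4_pos hr).le)
  have hd' := diag_pair hr hm0 hm1
  have hr3 : 0 ≤ r ^ 3 := pow_nonneg hr 3
  suffices 0 ≤ r ^ 3 * (A0 r + S2 r * (c + d) ^ 2 - K1 r * (c + d)) +
      (r ^ 3 * Bp r (c + d) - 2 * (q4 r * (3024000 * r + 2 * g0 m))) * (c * d) -
      r ^ 3 * C2 r * (c * d) ^ 2 by
    unfold Ssp
    linarith
  unfold Ssp at hd'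
  rw [hs]
  rw [hs] at hsp
  rcases le_total (2 * m) 1 with h | h
  · refine Eight.concave_ends (mul_nonneg hr3 (C2_nonneg hr)) hp hpM (mul_nonneg hr3 ?_)
      (by linarith)
    have := small_end hr (by linarith : 0 ≤ 2 * m) h
    have := mul_pos (q4_pos hr) (bb_pos hr)
    linarith
  · refine lin_ends (mul_nonneg hr3 (C2_nonneg hr)) hp hsp hpM ?_ (by linarith)
    have := mul_nonneg hr3 (large_end hr h (by linarith))
    linarith

/-- The gain of the diagonal terms covers the loss of the linear one. -/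
lemma gain {R v d : ℝ} (hR : 0 ≤ R) (hv : v ≤ 1) (hv0 : 0 ≤ v) (hd : |d| ≤ 1) :
    0 ≤ (1 - d ^ 2) * (X0 R - q4 R * b5 R * v - 6 * q4 R * bb R * v) +
      (7 + d ^ 2) * (q4 R * bb R * v) -
      4 * max d 0 * R * (2 * q4 R * bb R * v - (f0 R - q4 R * bb R * v)) := by
  have hq := mul_pos (q4_pos hR) (bb_pos hR)
  have hd2 : d ^ 2 ≤ 1 := (sq_le_one_iff_abs_le_one d).2 hd
  set x := max d 0 with hx
  have hx0 : 0 ≤ x := le_max_right _ _
  have hY0 : 0 ≤ (1 - d ^ 2) * X0 R + 4 * x * R * f0 R := by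
    have := f0_nonneg hR; have := X0_nonneg hR
    have : 0 ≤ 1 - d ^ 2 := by linarith
    positivity
  have hY1 : 0 ≤ (1 - d ^ 2) * (X0 R - q4 R * b5 R) + (1 + 7 * d ^ 2) * (q4 R * bb R) -
      4 * x * R * (3 * q4 R * bb R - f0 R) := by
    have h1 := X1_nonneg hR
    rcases le_or_gt (3 * q4 R * bb R - f0 R) 0 with h | h
    · have := mul_nonpos_of_nonneg_of_nonpos (show 0 ≤ 4 * x * R by positivity) h
      have := mul_nonneg (sub_nonneg.2 hd2) h1
      have : 0 ≤ (1 + 7 * d ^ 2) * (q4 R * bb R) := by positivity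
      linarith
    have hR2 : R ≤ 2 := le_of_not_gt fun h' => by linarith [f2_nonneg h'.le]
    rcases le_total d 0 with hd0 | hd0
    · have : x = 0 := max_eq_right hd0
      rw [this]
      have := mul_nonneg (sub_nonneg.2 hd2) h1
      have : 0 ≤ (1 + 7 * d ^ 2) * (q4 R * bb R) := by positivity
      linarith
    have hxd : x = d := max_eq_left hd0
    rw [hxd]
    have hZ := Z_nonneg hR hR2
    set a0 := q4 R * bb R + (X0 R - q4 R * b5 R) with ha0
    refine nonneg_of_mul_nonneg_right (b := (1 - d ^ 2) * (X0 R - q4 R * b5 R) +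
      (1 + 7 * d ^ 2) * (q4 R * bb R) - 4 * d * R * (3 * q4 R * bb R - f0 R)) ?_
      (show 0 < a0 by rw [ha0]; linarith)
    have t1 := sq_nonneg (a0 - 2 * R * (3 * q4 R * bb R - f0 R) * d)
    have t2 := mul_nonneg hZ (sq_nonneg d)
    rw [ha0] at t1 ⊢
    linarith
  have := mul_nonneg (sub_nonneg.2 hv) hY0
  have := mul_nonneg hv0 hY1
  linarith

/-- The regularised kernel: `r ≤ R`, `T = r² / R²`, `m` the root term, `u` the positive part
of the inward cosine. -/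
lemma regularise {r R T u d m : ℝ} (hr : 0 ≤ r) (hR : r ≤ R) (hT : T * R ^ 2 = r ^ 2)
    (hT0 : 0 ≤ T) (hT1 : T ≤ 1) (hu : 0 ≤ u) (hu1 : u ≤ 1) (hd : |d| ≤ 1)
    (hm : u * m ≤ u * ((2 - u ^ 2 - d ^ 2) / 2)) (hm0 : 0 ≤ m) :
    P R u d ≤ 79600 * R ^ 5 * q4 R +
      (1 - d ^ 2) * (f0 R - q4 R * bb R * (T * u ^ 2) -
        T * (X0 R - q4 R * b5 R * (T * u ^ 2)) - 2 * (1 - T) * (T * u ^ 2) * (q4 R * bb R)) +
      (7 + d ^ 2) * (f0 R - q4 R * bb R * (T * u ^ 2)) - 2 * T * u * |d| * (q4 R * bb R) * m -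
      8 * r * d * (f0 R - q4 R * bb R * (T * u ^ 2)) := by
  have hR0 : 0 ≤ R := hr.trans hR
  have hd2 : d ^ 2 ≤ 1 := (sq_le_one_iff_abs_le_one d).2 hd
  have hu2 : u ^ 2 ≤ 1 := pow_le_one₀ hu hu1
  have hqb : 0 ≤ q4 R * bb R := (mul_pos (q4_pos hR0) (bb_pos hR0)).le
  obtain ⟨e, he, rfl⟩ : ∃ e, 0 ≤ e ∧ T = 1 - e := ⟨1 - T, by linarith, by ring⟩
  have hg := mul_nonneg he (gain hR0 hu2 (sq_nonneg u) hd)
  have hbonus : 0 ≤ (1 - d ^ 2) * e * u ^ 2 *
      (5 * (q4 R * bb R) - q4 R * b5 R + e * (q4 R * b5 R + 2 * (q4 R * bb R))) := by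
    have h5 : 0 ≤ 5 * (q4 R * bb R) - q4 R * b5 R := by
      nlinarith [mul_le_mul_of_nonneg_left (b5_le hR0) (q4_pos hR0).le]
    have := mul_nonneg (q4_pos hR0).le (b5_nonneg hR0)
    have : 0 ≤ 1 - d ^ 2 := by linarith
    positivity
  have hmm : (1 - e) * (2 * |d| * (q4 R * bb R) * (u * m)) ≤
      |d| * (q4 R * bb R) * (u * (2 - u ^ 2 - d ^ 2)) := by
    have := mul_le_mul_of_nonneg_right hT1
      (show 0 ≤ 2 * |d| * (q4 R * bb R) * (u * m) by positivity)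
    have := mul_le_mul_of_nonneg_left hm (show 0 ≤ 2 * |d| * (q4 R * bb R) by positivity)
    linarith
  have hf : 0 ≤ f0 R - q4 R * bb R * u ^ 2 := f1_nonneg hR0 (hu2.trans (by norm_num))
  have hloss : 8 * r * d * (f0 R - q4 R * bb R * ((1 - e) * u ^ 2)) -
      8 * R * max d 0 * (f0 R - q4 R * bb R * u ^ 2) ≤
      e * (4 * max d 0 * R * (2 * q4 R * bb R * u ^ 2 - (f0 R - q4 R * bb R * u ^ 2))) := by
    rcases le_total d 0 with h | h
    · rw [max_eq_right h]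
      have : 0 ≤ f0 R - q4 R * bb R * ((1 - e) * u ^ 2) := by
        have := mul_nonneg (mul_nonneg hqb he) (sq_nonneg u)
        linarith
      have := mul_nonpos_of_nonpos_of_nonneg
        (mul_nonpos_of_nonneg_of_nonpos (show 0 ≤ 8 * r by linarith) h) this
      linarith
    · rw [max_eq_left h]
      have hre : e * R ≤ 2 * (R - r) := by
        rcases hR0.eq_or_lt with h0 | h0
        · rw [← h0] at hR ⊢; linarith
        refine le_of_mul_le_mul_left ?_ h0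
        nlinarith [mul_nonneg (sub_nonneg.2 hR) (sub_nonneg.2 hR)]
      have b1 := mul_le_mul_of_nonneg_right hR (mul_nonneg (mul_nonneg hqb he) (sq_nonneg u))
      have b2 := mul_le_mul_of_nonneg_right hre hf
      have b3 := mul_le_mul_of_nonneg_left
        (show r * (q4 R * bb R * e * u ^ 2) - (R - r) * (f0 R - q4 R * bb R * u ^ 2) ≤
          R * (q4 R * bb R * e * u ^ 2) - e * R / 2 * (f0 R - q4 R * bb R * u ^ 2) by linarith)
        (show 0 ≤ 8 * d by linarith)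
      linarith
  unfold P
  linarith

end

end Vale.Agent.P219.CH.Gen.Nine
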