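import Vale.Agent.P219.CH.Gen.Defs
import Vale.Agent.P219.CH.Cert.Law
import Vale.Agent.P219.CH.Cert.Profile
import Vale.Agent.P219.CH.Gen.Cert.Eight
import Vale.Agent.P219.CH.Gen.Cert.NinePoly

/-!
P219: the certificate in dimension nine. With `R = r`,
`3024000 r⁴ K(r,c) = 12928 (50 + 39 r + 8 r²)/(r + 2)³ + 3200 + 58176 r + 13475 r² + 30656 r³
- (79380 + 28800 r) c₊²`, `a = 199/7560`, and `g` is the rational function making the pair
inequality sharp on `r = 2 c = 2 d`.
-/

namespace Vale.Agent.P219.CH.Gen.Nine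

open MeasureTheory Set Filter Topology Vale.Agent.P219.CH.Core
open scoped ContDiff

noncomputable section

/-- A bounded continuation of `t ↦ t` beyond `1`. -/
def cap (t : ℝ) : ℝ := if t ≤ 1 then t else 1 + (t - 1) / (1 + 1000 * (t - 1))

lemma hasDerivAt_cap (t : ℝ) :
    HasDerivAt cap (1 / (1 + 1000 * (max t 1 - 1)) ^ 2) t := by
  have hr : ∀ x, (1 : ℝ) ≤ x → HasDerivAt (fun y => 1 + (y - 1) / (1 + 1000 * (y - 1)))
      (1 / (1 + 1000 * (x - 1)) ^ 2) x := fun x hx => by
    have hne : 1 + 1000 * (x - 1) ≠ 0 := by linarith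
    have h := (((hasDerivAt_id x).sub_const 1).div
      ((((hasDerivAt_id x).sub_const 1).const_mul 1000).const_add 1) hne).const_add 1
    refine h.congr_deriv ?_
    simp only [id_eq]
    ring
  rcases lt_trichotomy t 1 with h | h | h
  · rw [max_eq_right h.le]
    refine ((hasDerivAt_id t).congr_deriv (by norm_num)).congr_of_eventuallyEq ?_
    filter_upwards [Iio_mem_nhds h] with y hy
    simp [cap, le_of_lt (show y < 1 from hy)]
  · subst h
    have h1 : HasDerivWithinAt cap 1 (Iic 1) 1 :=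
      (hasDerivAt_id (1 : ℝ)).hasDerivWithinAt.congr
        (fun y hy => by simp [cap, show y ≤ 1 from hy]) (by simp [cap])
    have h2 : HasDerivWithinAt cap 1 (Ici 1) 1 := by
      have h := ((hr 1 le_rfl).hasDerivWithinAt (s := Ici 1)).congr (f₁ := cap)
        (fun y hy => by
          rcases (show (1 : ℝ) ≤ y from hy).eq_or_lt with rfl | h'
          · simp [cap]
          · simp [cap, not_le.2 h']) (by simp [cap])
      norm_num at h
      exact h
    have h3 := h1.union h2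
    rw [Iic_union_Ici, hasDerivWithinAt_univ] at h3
    rw [max_self]
    norm_num
    exact h3
  · rw [max_eq_left h.le]
    refine (hr t h.le).congr_of_eventuallyEq ?_
    filter_upwards [Ioi_mem_nhds h] with y hy
    simp [cap, not_le.2 (show 1 < y from hy)]

lemma cap_le (t : ℝ) : cap t ≤ 1001 / 1000 := by
  unfold cap
  split_ifs with h
  · linarith
  · have : (t - 1) / (1 + 1000 * (t - 1)) ≤ 1 / 1000 := by
      rw [div_le_iff₀ (by linarith [not_le.1 h])]
      linarith
    linarith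

lemma cap_of_le {t : ℝ} (h : t ≤ 1) : cap t = t := if_pos h

lemma contDiff_cap : ContDiff ℝ 1 cap := by
  refine contDiff_one_iff_deriv.2 ⟨fun p => (hasDerivAt_cap p).differentiableAt, ?_⟩
  rw [funext fun p => (hasDerivAt_cap p).deriv]
  refine continuous_const.div (by fun_prop) fun t => pow_ne_zero 2 ?_
  have := le_max_right t 1
  linarith

/-- The radial part of `r⁴ K`, times `3024000`. -/
def F0 (R : ℝ) : ℝ :=
  (646400 + 504192 * R + 103424 * R ^ 2) / (R + 2) ^ 3 + 3200 + 58176 * R + 13475 * R ^ 2 +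
    30656 * R ^ 3

/-- `K / r` as a function of `r` and `c₊²`. -/
def H (R τ : ℝ) : ℝ := (F0 R - bb R * τ) / (3024000 * R ^ 5)

lemma H_eq {R : ℝ} (hR : 0 < R) (τ : ℝ) :
    H R τ = (f0 R - q4 R * bb R * τ) / (3024000 * R ^ 5 * q4 R) := by
  unfold H F0 f0 q4
  field_simp
  ring

lemma hasDerivAt_F0 {R : ℝ} (hR : 0 < R) :
    HasDerivAt (fun x => F0 x / (3024000 * x ^ 5))
      (-X0 R / (3024000 * R ^ 6 * q4 R)) R := by
  have h2 : R + 2 ≠ 0 := by linarith
  have hN := (((hasDerivAt_id R).const_mul 504192).const_add 646400).add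
    ((hasDerivAt_pow 2 R).const_mul 103424)
  have := (((((hN.div (((hasDerivAt_id R).add_const 2).pow 3) (pow_ne_zero 3 h2)).add_const
    3200).add ((hasDerivAt_id R).const_mul 58176)).add
    ((hasDerivAt_pow 2 R).const_mul 13475)).add ((hasDerivAt_pow 3 R).const_mul 30656)).div
    ((hasDerivAt_pow 5 R).const_mul 3024000) (by positivity)
  refine this.congr_deriv ?_
  simp only [Pi.add_apply, Pi.pow_apply, Pi.div_apply, id_eq]
  unfold X0 q4
  push_cast
  field_simp
  ring

lemma hasDerivAt_B {R : ℝ} (hR : 0 < R) :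
    HasDerivAt (fun x => bb x / (3024000 * x ^ 5)) (-b5 R / (3024000 * R ^ 6)) R := by
  have := (((hasDerivAt_id R).const_mul 28800).const_add 79380).div
    ((hasDerivAt_pow 5 R).const_mul 3024000) (by positivity)
  refine this.congr_deriv ?_
  simp only [id_eq]
  unfold b5
  push_cast
  field_simp
  ring

/-- The profile `K / r` as a function of `S = r²` and `q = (r c₊)²`. -/
def core (S q : ℝ) : ℝ := H (Real.sqrt S) (cap (q / S))

/-- The regularised field. -/
def psi (σ s p : ℝ) : ℝ := core (Cert.shift σ s) (Eight.sqPos p)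

lemma contDiff_psi {σ : ℝ} (hσ : 0 < σ) : ContDiff ℝ 1 (Function.uncurry (psi σ)) := by
  have hS : ContDiff ℝ 1 fun z : ℝ × ℝ => Cert.shift σ z.1 :=
    (Eight.contDiff_shift hσ).comp contDiff_fst
  have hq : ContDiff ℝ 1 fun z : ℝ × ℝ => Eight.sqPos z.2 :=
    Eight.contDiff_sqPos.comp contDiff_snd
  have hne : ∀ z : ℝ × ℝ, Cert.shift σ z.1 ≠ 0 := fun z => (Cert.shift_pos hσ z.1).ne'
  have h1 : ContDiff ℝ 1 fun z : ℝ × ℝ => cap (Eight.sqPos z.2 / Cert.shift σ z.1) :=
    contDiff_cap.comp (hq.div hS hne)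
  have hR : ContDiff ℝ 1 fun z : ℝ × ℝ => Real.sqrt (Cert.shift σ z.1) := hS.sqrt hne
  have hR0 : ∀ z : ℝ × ℝ, 0 < Real.sqrt (Cert.shift σ z.1) :=
    fun z => Real.sqrt_pos.2 (Cert.shift_pos hσ z.1)
  have hF : ContDiff ℝ 1 fun z : ℝ × ℝ => F0 (Real.sqrt (Cert.shift σ z.1)) :=
    ((((((contDiff_const.add (contDiff_const.mul hR)).add (contDiff_const.mul (hR.pow 2))).div
      ((hR.add contDiff_const).pow 3) fun z => pow_ne_zero 3 (by linarith [hR0 z])).add
      contDiff_const).add (contDiff_const.mul hR)).add (contDiff_const.mul (hR.pow 2))).add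
      (contDiff_const.mul (hR.pow 3))
  have hB : ContDiff ℝ 1 fun z : ℝ × ℝ => bb (Real.sqrt (Cert.shift σ z.1)) :=
    contDiff_const.add (contDiff_const.mul hR)
  exact (hF.sub (hB.mul h1)).div (contDiff_const.mul (hR.pow 5))
    fun z => mul_ne_zero (by norm_num) (pow_ne_zero 5 (hR0 z).ne')

lemma psi_nonneg {σ : ℝ} (hσ : 0 < σ) (s p : ℝ) : 0 ≤ psi σ s p := by
  have hR := Real.sqrt_pos.2 (Cert.shift_pos hσ s)
  rw [psi, core, H_eq hR]
  have := f1_nonneg hR.le (cap_le (Eight.sqPos p / Cert.shift σ s))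
  have := q4_pos hR.le
  positivity

/-- The slices of `psi` at `(r², r c)`. -/
lemma psi_at {σ : ℝ} (hσ : 0 < σ) {r c R τ : ℝ} (hr : 0 ≤ r) (hc : |c| ≤ 1)
    (hR : R = Real.sqrt (σ ^ 2 + r ^ 2)) (hτ : τ = r ^ 2 * max c 0 ^ 2 / R ^ 2) :
    psi σ (r ^ 2) (r * c) = (f0 R - q4 R * bb R * τ) / (3024000 * R ^ 5 * q4 R) ∧
    dS (psi σ) r c = -(X0 R - q4 R * b5 R * τ) / (2 * 3024000 * R ^ 7 * q4 R) +
      bb R * τ / (3024000 * R ^ 7) ∧
    dP (psi σ) r c = -(2 * (r * max c 0) * bb R) / (3024000 * R ^ 7) := by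
  have hS : 0 < σ ^ 2 + r ^ 2 := by positivity
  have hR0 : 0 < R := hR ▸ Real.sqrt_pos.2 hS
  have hR2 : R ^ 2 = σ ^ 2 + r ^ 2 := by rw [hR, Real.sq_sqrt hS.le]
  set S := σ ^ 2 + r ^ 2 with hSdef
  have hsh : Cert.shift σ (r ^ 2) = S := Cert.shift_sq hσ r
  have hmax : max (r * c) 0 = r * max c 0 := by rw [mul_max_of_nonneg _ _ hr, mul_zero]
  have hq : Eight.sqPos (r * c) = r ^ 2 * max c 0 ^ 2 := by
    rw [Eight.sqPos, hmax, mul_pow]
  rw [hR2] at hτ
  have ht : τ ≤ 1 := by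
    rw [hτ, div_le_one hS]
    have h1 : max c 0 ^ 2 ≤ 1 :=
      pow_le_one₀ (le_max_right _ _) (max_le ((le_abs_self c).trans hc) zero_le_one)
    nlinarith [sq_nonneg σ, mul_le_mul_of_nonneg_left h1 (sq_nonneg r)]
  have hd := ((contDiff_psi hσ).differentiable one_ne_zero (r ^ 2, r * c)).hasFDerivAt
  have hcap : HasDerivAt cap 1 τ := by
    have := hasDerivAt_cap τ
    rw [max_eq_right ht] at this
    norm_num at this
    exact this
  have hshift : HasDerivAt (Cert.shift σ) 1 (r ^ 2) := by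
    have := Cert.hasDerivAt_shift hσ (r ^ 2)
    rwa [max_eq_right (by nlinarith), add_zero, div_self (pow_pos hσ 2).ne', one_pow] at this
  refine ⟨by rw [psi, core, hsh, hq, ← hτ, ← hR, cap_of_le ht, H_eq hR0], ?_, ?_⟩
  · have hline : HasDerivAt (fun x : ℝ => (x, r * c)) ((1 : ℝ), (0 : ℝ)) (r ^ 2) :=
      (hasDerivAt_id (r ^ 2)).prodMk (hasDerivAt_const _ (r * c))
    have h1 : HasDerivAt (fun x => psi σ x (r * c)) (dS (psi σ) r c) (r ^ 2) := by
      have := hd.comp_hasDerivAt (r ^ 2) hline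
      exact this
    have hdiv := (hasDerivAt_const S (r ^ 2 * max c 0 ^ 2)).div (hasDerivAt_id S) hS.ne'
    have hsq : HasDerivAt Real.sqrt (1 / (2 * R)) S := hR ▸ Real.hasDerivAt_sqrt hS.ne'
    have e1 := (hasDerivAt_F0 hR0).comp_of_eq S hsq hR
    have e2 := (hasDerivAt_B hR0).comp_of_eq S hsq hR
    have e3 := hcap.comp_of_eq S hdiv (by simp [← hτ])
    have h2 : HasDerivAt (fun x => core x (r ^ 2 * max c 0 ^ 2))
        (-(X0 R - q4 R * b5 R * τ) / (2 * 3024000 * R ^ 7 * q4 R) +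
          bb R * τ / (3024000 * R ^ 7)) S := by
      refine ((e1.sub (e2.mul e3)).congr_of_eventuallyEq (Eventually.of_forall fun x => ?_))
        |>.congr_deriv ?_
      · simp only [core, H, Pi.sub_apply, Pi.mul_apply, Function.comp_apply, Pi.div_apply, id_eq]
        ring
      · simp only [Function.comp_apply, Pi.div_apply, id_eq, ← hτ, cap_of_le ht, ← hR]
        have e : r ^ 2 * max c 0 ^ 2 = τ * R ^ 2 := by
          rw [hτ, hR2, div_mul_cancel₀ _ hS.ne']
        rw [e, ← hR2]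
        have := q4_pos hR0.le
        field_simp
        ring
    have h3 : HasDerivAt (fun x => psi σ x (r * c))
        (-(X0 R - q4 R * b5 R * τ) / (2 * 3024000 * R ^ 7 * q4 R) +
          bb R * τ / (3024000 * R ^ 7)) (r ^ 2) := by
      have h := h2.comp_of_eq (r ^ 2) hshift hsh.symm
      simp only [mul_one] at h
      unfold psi
      rw [hq]
      exact h
    exact h1.unique h3
  · have h1 : HasDerivAt (fun x => psi σ (r ^ 2) x) (dP (psi σ) r c) (r * c) :=
      hd.comp_hasDerivAt (r * c) ((hasDerivAt_const _ (r ^ 2)).prodMk (hasDerivAt_id (r * c)))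
    have h3 : HasDerivAt (fun x => psi σ (r ^ 2) x)
        (-(2 * (r * max c 0) * bb R) / (3024000 * R ^ 7)) (r * c) := by
      have hin := (Eight.hasDerivAt_sqPos (r * c)).div_const S
      have hcap' : HasDerivAt cap 1 (Eight.sqPos (r * c) / S) := by rw [hq, ← hτ]; exact hcap
      have := (((hcap'.comp (r * c) hin).const_mul (bb R)).const_sub (F0 R)).div_const
        (3024000 * R ^ 5)
      unfold psi core H
      rw [hsh, ← hR]
      refine this.congr_deriv ?_
      rw [hmax, ← hR2]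
      field_simp
    exact h1.unique h3

/-- The kernel dominates the polynomial. -/
lemma kernel_ge {σ : ℝ} (hσ : 0 < σ) {r c d : ℝ} (hr : 0 ≤ r) (hc : |c| ≤ 1) (hd : |d| ≤ 1) :
    P (Real.sqrt (σ ^ 2 + r ^ 2)) (max c 0) d ≤
      3024000 * Real.sqrt (σ ^ 2 + r ^ 2) ^ 5 * q4 (Real.sqrt (σ ^ 2 + r ^ 2)) *
        kernel 9 (199 / 7560) (psi σ) r c d := by
  set R := Real.sqrt (σ ^ 2 + r ^ 2) with hRdef
  have hS : 0 < σ ^ 2 + r ^ 2 := by positivity
  have hR0 : 0 < R := Real.sqrt_pos.2 hS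
  set u := max c 0 with hu
  obtain ⟨h0, hs, hp⟩ := psi_at hσ (R := R) (τ := r ^ 2 * u ^ 2 / R ^ 2) hr hc rfl rfl
  have hu0 : 0 ≤ u := le_max_right _ _
  have hu1 : u ≤ 1 := max_le ((le_abs_self c).trans hc) zero_le_one
  have hrR : r ≤ R := by
    rw [hRdef]; exact Real.le_sqrt_of_sq_le (by nlinarith [sq_nonneg σ])
  set m := Real.sqrt (1 - c ^ 2) * Real.sqrt (1 - d ^ 2) with hm
  have hm0 : 0 ≤ m := mul_nonneg (Real.sqrt_nonneg _) (Real.sqrt_nonneg _)
  have hc2 : c ^ 2 ≤ 1 := (sq_le_one_iff_abs_le_one c).2 hc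
  have hd2 : d ^ 2 ≤ 1 := (sq_le_one_iff_abs_le_one d).2 hd
  have hum : u * m ≤ u * ((2 - u ^ 2 - d ^ 2) / 2) := by
    rcases le_total c 0 with h | h
    · rw [hu, max_eq_right h]; simp
    · have e1 : u = c := max_eq_left h
      rw [e1]
      refine mul_le_mul_of_nonneg_left ?_ h
      nlinarith [sq_nonneg (Real.sqrt (1 - c ^ 2) - Real.sqrt (1 - d ^ 2)),
        Real.sq_sqrt (show 0 ≤ 1 - c ^ 2 by linarith),
        Real.sq_sqrt (show 0 ≤ 1 - d ^ 2 by linarith)]
  have hT : r ^ 2 / R ^ 2 * R ^ 2 = r ^ 2 := div_mul_cancel₀ _ (pow_ne_zero 2 hR0.ne')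
  have hreg := regularise hr hrR hT (by positivity)
    (div_le_one_of_le₀ (pow_le_pow_left₀ hr hrR 2) (sq_nonneg R)) hu0 hu1 hd hum hm0
  refine hreg.trans (le_of_eq ?_)
  have hb := bb_pos hR0.le
  have hab : |dP (psi σ) r c| = 2 * (r * u) * bb R / (3024000 * R ^ 7) := by
    rw [hp, neg_div, abs_neg, abs_of_nonneg (by positivity)]
  have hcu : c * u = u ^ 2 := by
    rcases le_total c 0 with h | h
    · simp [hu, max_eq_right h]
    · simp [hu, max_eq_left h, sq]
  rw [kernel, geom, hab, h0, hs, hp, mul_assoc _ (Real.sqrt (1 - c ^ 2)), ← hm]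
  have := q4_pos hR0.le
  push_cast
  field_simp
  linear_combination (15120 * R ^ 2 * (1 - d ^ 2) * bb R * q4 R * r ^ 2) * hcu

/-- The end weight. -/
def g (c : ℝ) : ℝ := g0 (min (max c 0) 1) / 3024000

lemma g_eq {c : ℝ} (h0 : 0 ≤ c) (h1 : c ≤ 1) : g c = g0 c / 3024000 := by
  rw [g, max_eq_left h0, min_eq_left h1]

lemma g_nonpos (c : ℝ) : g c ≤ 0 :=
  div_nonpos_of_nonpos_of_nonneg
    (g0_nonpos (le_min (le_max_right _ _) zero_le_one) (min_le_right _ _)) (by norm_num)

lemma continuous_g : Continuous g := by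
  have ht : Continuous fun c : ℝ => min (max c 0) 1 := by fun_prop
  unfold g g0 gA gG
  refine ((Continuous.div (by fun_prop) (by fun_prop) fun c => pow_ne_zero 3 ?_).add
    (by fun_prop)).div_const _
  have : 0 ≤ min (max c 0) 1 := le_min (le_max_right _ _) zero_le_one
  linarith

lemma kernel_nonneg {σ : ℝ} (hσ : 0 < σ) {r c d : ℝ} (hr : 0 ≤ r) (hc : |c| ≤ 1)
    (hd : |d| ≤ 1) :
    0 ≤ kernel 9 (199 / 7560) (psi σ) r c d + kernel 9 (199 / 7560) (psi σ) r d c := by
  set R := Real.sqrt (σ ^ 2 + r ^ 2) with hRdef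
  have hR : 0 < R := Real.sqrt_pos.2 (by positivity)
  have h := sum_nonneg' hR.le hc hd
  have h1 := kernel_ge hσ hr hc hd
  have h2 := kernel_ge hσ hr hd hc
  rw [← hRdef] at h1 h2
  have := q4_pos hR.le
  exact nonneg_of_mul_nonneg_right
    (show 0 ≤ 3024000 * R ^ 5 * q4 R *
      (kernel 9 (199 / 7560) (psi σ) r c d + kernel 9 (199 / 7560) (psi σ) r d c) by linarith)
    (by positivity)

lemma pair_reg {σ : ℝ} (hσ : 0 < σ) {r c d : ℝ} (hr : 0 < r) (hc : 0 < c) (hc1 : c ≤ 1)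
    (hd : 0 < d) (hd1 : d ≤ 1) :
    r - 8 * σ + g c + g d ≤ r ^ (9 - 1) *
      (kernel 9 (199 / 7560) (psi σ) r c d + kernel 9 (199 / 7560) (psi σ) r d c) /
        (2 * c * d) := by
  have hac : |c| ≤ 1 := by rwa [abs_of_pos hc]
  have had : |d| ≤ 1 := by rwa [abs_of_pos hd]
  set k := kernel 9 (199 / 7560) (psi σ) r c d + kernel 9 (199 / 7560) (psi σ) r d c with hk'
  have hk : 0 ≤ k := kernel_nonneg hσ hr.le hac had
  set R := Real.sqrt (σ ^ 2 + r ^ 2) with hR
  have hR0 : 0 < R := Real.sqrt_pos.2 (by positivity)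
  have hrR : r ≤ R := by rw [hR]; exact Real.le_sqrt_of_sq_le (by nlinarith [sq_nonneg σ])
  have hRσ : R ≤ r + σ := by
    rw [hR]; exact (Real.sqrt_le_iff).2 ⟨by linarith, by nlinarith⟩
  have h1 : 2 * c * d * (R + g c + g d) ≤ R ^ 8 * k := by
    have hp := pair hR0.le hc.le hc1 hd.le hd1
    have h1 := kernel_ge hσ hr.le hac had
    have h2 := kernel_ge hσ hr.le had hac
    rw [← hR, max_eq_left hc.le] at h1
    rw [← hR, max_eq_left hd.le] at h2
    have h3 := mul_le_mul_of_nonneg_left (add_le_add h1 h2) (pow_nonneg hR0.le 3)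
    refine le_of_mul_le_mul_left ?_ (mul_pos (show (0 : ℝ) < 3024000 by norm_num) (q4_pos hR0.le))
    rw [g_eq hc.le hc1, g_eq hd.le hd1, hk']
    linarith
  rw [le_div_iff₀ (by positivity), show (9 - 1 : ℕ) = 8 from rfl]
  set Y := R + g c + g d with hY
  rcases le_or_gt Y 0 with h | h
  · exact (mul_nonpos_of_nonpos_of_nonneg (by linarith) (by positivity)).trans
      (mul_nonneg (by positivity) hk)
  have hx1 : r / R ≤ 1 := (div_le_one hR0).2 hrR
  have hbern : 1 + 8 * (r / R - 1) ≤ (r / R) ^ 8 := by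
    have := one_add_mul_le_pow (a := r / R - 1) (by linarith [div_nonneg hr.le hR0.le]) 8
    simpa using this
  have hYR : Y ≤ R := by linarith [g_nonpos c, g_nonpos d]
  have h4 : r - 8 * σ + g c + g d ≤ (r / R) ^ 8 * Y := by
    have a1 : (1 + 8 * (r / R - 1)) * Y ≤ (r / R) ^ 8 * Y :=
      mul_le_mul_of_nonneg_right hbern h.le
    have a2 : (1 - r / R) * Y ≤ (1 - r / R) * R :=
      mul_le_mul_of_nonneg_left hYR (by linarith)
    have a3 : (1 - r / R) * R = R - r := by field_simp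
    linarith
  calc (r - 8 * σ + g c + g d) * (2 * c * d)
      ≤ (r / R) ^ 8 * Y * (2 * c * d) := mul_le_mul_of_nonneg_right h4 (by positivity)
    _ = (r / R) ^ 8 * (2 * c * d * Y) := by ring
    _ ≤ (r / R) ^ 8 * (R ^ 8 * k) := mul_le_mul_of_nonneg_left h1 (by positivity)
    _ = r ^ 8 * k := by rw [← mul_assoc, ← mul_pow, div_mul_cancel₀ _ hR0.ne']

lemma balance : ∀ hn : 0 < 9, 199 / 7560 * ((9 : ℕ) : ℝ) * omega 9 =
    omega 9 + 2 * ((9 : ℕ) : ℝ) * gInt hn g := by
  intro hn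
  have h := Cert.law_odd 3 hn (F := fun c => g c * c) (continuous_g.mul continuous_id)
  have hJ : ∫ c in (0 : ℝ)..1, g c * c * (1 - c ^ 2) ^ 3 = -1282 / 33075 := by
    have e : EqOn (fun c : ℝ => g c * c * (1 - c ^ 2) ^ 3) (fun c =>
        (-2016000 * c ^ 2 + 5009760 * c ^ 4 + -460800 * c ^ 5 + -2513280 * c ^ 6 +
          2304000 * c ^ 7 + -3987648 * c ^ 8 + -2078720 * c ^ 9 + 4625280 * c ^ 10 +
          122880 * c ^ 11 + -1324960 * c ^ 12 + 319488 * c ^ 13) / 3024000) (uIcc 0 1) := by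
      intro c hc
      rw [uIcc_of_le zero_le_one] at hc
      have : 1 + c ≠ 0 := by linarith [hc.1]
      simp only [g_eq hc.1 hc.2, g0, gA, gG]
      field_simp
      ring
    rw [intervalIntegral.integral_congr e, intervalIntegral.integral_div]
    repeat rw [intervalIntegral.integral_add (Continuous.intervalIntegrable (by fun_prop) 0 1)
      (Continuous.intervalIntegrable (by fun_prop) 0 1)]
    simp only [intervalIntegral.integral_const_mul, integral_pow]
    norm_num
  have hW : ∫ c in (0 : ℝ)..1, (1 - c ^ 2) ^ 3 = 16 / 35 := by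
    rw [show (fun c : ℝ => (1 - c ^ 2) ^ 3) =
      fun c => 1 + -3 * c ^ 2 + 3 * c ^ 4 + -1 * c ^ 6 from funext fun c => by ring]
    repeat rw [intervalIntegral.integral_add (Continuous.intervalIntegrable (by fun_prop) 0 1)
      (Continuous.intervalIntegrable (by fun_prop) 0 1)]
    simp only [intervalIntegral.integral_const_mul, integral_pow, intervalIntegral.integral_const]
    norm_num
  rw [hJ, hW] at h
  have h' : (16 / 35 : ℝ) * gInt hn g = omega 9 / 2 * (-1282 / 33075) := h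
  push_cast
  linarith

end

end Vale.Agent.P219.CH.Gen.Nine

namespace Vale.Agent.P219.CH.Gen

/-- The certificate in dimension nine. -/
noncomputable def cert9 : Cert 9 where
  a := 199 / 7560
  a_nonneg := by norm_num
  g := Nine.g
  g_cont := Nine.continuous_g
  g_nonpos c _ := Nine.g_nonpos c
  approx σ hσ := ⟨Nine.psi (σ / 8), Nine.contDiff_psi (by positivity),
    fun s p _ => Nine.psi_nonneg (by positivity) s p,
    fun r c d hr hc hd => Nine.kernel_nonneg (by positivity) hr hc hd,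
    fun r c d hr hc hc1 hd hd1 => by
      have := Nine.pair_reg (σ := σ / 8) (by positivity) hr hc hc1 hd hd1
      rwa [mul_div_cancel₀ _ (by norm_num : (8 : ℝ) ≠ 0)] at this⟩
  balance := Nine.balance

end Vale.Agent.P219.CH.Gen
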