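import Mathlib

/-!
P219: univariate inequalities behind the certificate in dimension nine. Everything is scaled by
`3024000 (r + 2)⁴`; each is checked by an identity with nonnegative coefficients, on the intervals
shown (Bernstein form) or on `[2, ∞)`.
-/

namespace Vale.Agent.P219.CH.Gen.Nine

noncomputable section

/-- The common denominator. -/
def q4 (r : ℝ) : ℝ := (r + 2) ^ 4

/-- Minus the coefficient of `c₊²` in the field. -/
def bb (r : ℝ) : ℝ := 79380 + 28800 * r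

/-- `5 bb - r bb'`. -/
def b5 (r : ℝ) : ℝ := 396900 + 115200 * r

/-- The part of the field free of the cosine. -/
def f0 (r : ℝ) : ℝ :=
  (646400 + 504192 * r + 103424 * r ^ 2) * (r + 2) +
    (r + 2) ^ 4 * (3200 + 58176 * r + 13475 * r ^ 2 + 30656 * r ^ 3)

/-- `5 f - r f'` for that part. -/
def X0 (r : ℝ) : ℝ :=
  (3232000 + 2016768 * r + 310272 * r ^ 2) * (r + 2) +
    3 * r * (646400 + 504192 * r + 103424 * r ^ 2) +
    (r + 2) ^ 4 * (16000 + 232704 * r + 40425 * r ^ 2 + 61312 * r ^ 3)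

/-- Minus the coefficient of `p²` in the symmetrised kernel. -/
def C2 (r : ℝ) : ℝ := q4 r * (2 * b5 r + 4 * bb r)

/-- The symmetrised kernel at `s = p = 0`. -/
def A0 (r : ℝ) : ℝ := 159200 * r ^ 5 * q4 r + 16 * f0 r - 2 * X0 r

/-- Its coefficient of `s²`. -/
def S2 (r : ℝ) : ℝ := X0 r - q4 r * (8 * bb r - b5 r)

/-- Minus its coefficient of `s`. -/
def K1 (r : ℝ) : ℝ := 8 * r * f0 r

/-- A coefficient of the kernel on the diagonal `c = d`. -/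
def d0 (r : ℝ) : ℝ :=
  591360 + -3095040 * r ^ 1 + 2810496 * r ^ 2 + 8658816 * r ^ 3 + 2740128 * r ^ 4 +
  -3448800 * r ^ 5 + -2366376 * r ^ 6 + 85864 * r ^ 7 + 391552 * r ^ 8 + 79600 * r ^ 9

/-- A coefficient of the kernel on the diagonal `c = d`. -/
def d1 (r : ℝ) : ℝ :=
  16867200 + 6109440 * r ^ 1 + -4186848 * r ^ 2 + 293376 * r ^ 3 + -4558968 * r ^ 4 +
  -10525104 * r ^ 5 + -4004786 * r ^ 6 + 2290616 * r ^ 7 + 1811456 * r ^ 8 + 318400 * r ^ 9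

/-- A coefficient of the kernel on the diagonal `c = d`. -/
def d2 (r : ℝ) : ℝ :=
  24561600 + 14102400 * r ^ 1 + -5179824 * r ^ 2 + -1670976 * r ^ 3 + 548964 * r ^ 4 +
  -1938600 * r ^ 5 + 3406019 * r ^ 6 + 6417976 * r ^ 7 + 3085056 * r ^ 8 + 477600 * r ^ 9

/-- A coefficient of the kernel on the diagonal `c = d`. -/
def d3 (r : ℝ) : ℝ :=
  16128000 + 21504000 * r ^ 1 + 19669440 * r ^ 2 + 20949504 * r ^ 3 + 17921184 * r ^ 4 +
  11655072 * r ^ 5 + 9130492 * r ^ 6 + 6307560 * r ^ 7 + 2301952 * r ^ 8 + 318400 * r ^ 9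

/-- A coefficient of the kernel on the diagonal `c = d`. -/
def d4 (r : ℝ) : ℝ :=
  4032000 + 8064000 * r ^ 1 + 10293360 * r ^ 2 + 10967520 * r ^ 3 + 9374184 * r ^ 4 +
  6459768 * r ^ 5 + 4086063 * r ^ 6 + 2094336 * r ^ 7 + 636800 * r ^ 8 + 79600 * r ^ 9

lemma f1_ge {r : ℝ} (hr : 0 ≤ r) :
    0 ≤ f0 r - q4 r * bb r * (1001 / 1000) := by
  rcases le_total r (1 / 2) with h0 | h0
  · obtain ⟨x, z, hx, hz, hxz, rfl⟩ : ∃ x z : ℝ, 0 ≤ x ∧ 0 ≤ z ∧ x + z = 1 ∧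
        r = 0 + (1 / 2) * x := ⟨(r - 0) / (1 / 2), 1 - (r - 0) / (1 / 2),
        div_nonneg (by linarith) (by norm_num),
        by rw [sub_nonneg, div_le_one (by norm_num)]; linarith,
        by ring, by ring⟩
    obtain rfl : z = 1 - x := by linarith
    have e :
        f0 (0 + (1 / 2) * x) - q4 (0 + (1 / 2) * x) * bb (0 + (1 / 2) * x) * (1001 / 1000) =
        (1816248 / 25) * (1 - x) ^ 7 + (8764224 / 25) * x ^ 1 * (1 - x) ^ 6 +
        (14666169 / 25) * x ^ 2 * (1 - x) ^ 5 + (17868441 / 50) * x ^ 3 * (1 - x) ^ 4 +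
        (19691451 / 160) * x ^ 4 * (1 - x) ^ 3 + (12347557 / 32) * x ^ 5 * (1 - x) ^ 2 +
        (31849981 / 64) * x ^ 6 * (1 - x) ^ 1 + (11933745 / 64) * x ^ 7 := by
      simp only [bb, f0, q4]; ring
    rw [e]; positivity
  rcases le_total r 1 with h1 | h1
  · obtain ⟨x, z, hx, hz, hxz, rfl⟩ : ∃ x z : ℝ, 0 ≤ x ∧ 0 ≤ z ∧ x + z = 1 ∧
        r = (1 / 2) + (1 / 2) * x := ⟨(r - (1 / 2)) / (1 / 2), 1 - (r - (1 / 2)) / (1 / 2),
        div_nonneg (by linarith) (by norm_num),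
        by rw [sub_nonneg, div_le_one (by norm_num)]; linarith,
        by ring, by ring⟩
    obtain rfl : z = 1 - x := by linarith
    have e :
        f0 ((1 / 2) + (1 / 2) * x) -
          q4 ((1 / 2) + (1 / 2) * x) * bb ((1 / 2) + (1 / 2) * x) * (1001 / 1000) =
        (11933745 / 64) * (1 - x) ^ 7 + (135222449 / 64) * x ^ 1 * (1 - x) ^ 6 +
        (322464961 / 32) * x ^ 2 * (1 - x) ^ 5 + (4173810749 / 160) * x ^ 3 * (1 - x) ^ 4 +
        (3960255877 / 100) * x ^ 4 * (1 - x) ^ 3 + (883490869 / 25) * x ^ 5 * (1 - x) ^ 2 +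
        (860464103 / 50) * x ^ 6 * (1 - x) ^ 1 + (176838621 / 50) * x ^ 7 := by
      simp only [bb, f0, q4]; ring
    rw [e]; positivity
  rcases le_total r 2 with h2 | h2
  · obtain ⟨x, z, hx, hz, hxz, rfl⟩ : ∃ x z : ℝ, 0 ≤ x ∧ 0 ≤ z ∧ x + z = 1 ∧
        r = 1 + 1 * x := ⟨(r - 1) / 1, 1 - (r - 1) / 1,
        div_nonneg (by linarith) (by norm_num),
        by rw [sub_nonneg, div_le_one (by norm_num)]; linarith,
        by ring, by ring⟩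
    obtain rfl : z = 1 - x := by linarith
    have e :
        f0 (1 + 1 * x) - q4 (1 + 1 * x) * bb (1 + 1 * x) * (1001 / 1000) =
        (176838621 / 50) * (1 - x) ^ 7 + (398536567 / 10) * x ^ 1 * (1 - x) ^ 6 +
        (9513718613 / 50) * x ^ 2 * (1 - x) ^ 5 + (24965069807 / 50) * x ^ 3 * (1 - x) ^ 4 +
        (19463228312 / 25) * x ^ 4 * (1 - x) ^ 3 + (18051477968 / 25) * x ^ 5 * (1 - x) ^ 2 +
        (9230060288 / 25) * x ^ 6 * (1 - x) ^ 1 + (2008979328 / 25) * x ^ 7 := by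
      simp only [bb, f0, q4]; ring
    rw [e]; positivity
  obtain ⟨y, hy, rfl⟩ : ∃ y, 0 ≤ y ∧ r = 2 + y := ⟨r - 2, by linarith, by ring⟩
  have e : f0 (2 + y) - q4 (2 + y) * bb (2 + y) * (1001 / 1000) =
      (2008979328 / 25) + (4832795008 / 25) * y ^ 1 + (4859682128 / 25) * y ^ 2 +
      (2657533688 / 25) * y ^ 3 + (1714944111 / 50) * y ^ 4 + (32763356 / 5) * y ^ 5 +
      687907 * y ^ 6 + 30656 * y ^ 7 := by
    simp only [bb, f0, q4]; ring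
  rw [e]; positivity

lemma X1_nonneg {r : ℝ} (hr : 0 ≤ r) :
    0 ≤ X0 r - q4 r * b5 r := by
  rcases le_total r (1 / 2) with h0 | h0
  · obtain ⟨x, z, hx, hz, hxz, rfl⟩ : ∃ x z : ℝ, 0 ≤ x ∧ 0 ≤ z ∧ x + z = 1 ∧
        r = 0 + (1 / 2) * x := ⟨(r - 0) / (1 / 2), 1 - (r - 0) / (1 / 2),
        div_nonneg (by linarith) (by norm_num),
        by rw [sub_nonneg, div_le_one (by norm_num)]; linarith,
        by ring, by ring⟩
    obtain rfl : z = 1 - x := by linarith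
    have e :
        X0 (0 + (1 / 2) * x) - q4 (0 + (1 / 2) * x) * b5 (0 + (1 / 2) * x) =
        369600 * (1 - x) ^ 7 + 2035200 * x ^ 1 * (1 - x) ^ 6 + 4303404 * x ^ 2 * (1 - x) ^ 5 +
        4258524 * x ^ 3 * (1 - x) ^ 4 + (7945053 / 4) * x ^ 4 * (1 - x) ^ 3 +
        735048 * x ^ 5 * (1 - x) ^ 2 + (42283385 / 64) * x ^ 6 * (1 - x) ^ 1 +
        (18665737 / 64) * x ^ 7 := by
      simp only [X0, b5, q4]; ring
    rw [e]; positivity
  rcases le_total r 1 with h1 | h1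
  · obtain ⟨x, z, hx, hz, hxz, rfl⟩ : ∃ x z : ℝ, 0 ≤ x ∧ 0 ≤ z ∧ x + z = 1 ∧
        r = (1 / 2) + (1 / 2) * x := ⟨(r - (1 / 2)) / (1 / 2), 1 - (r - (1 / 2)) / (1 / 2),
        div_nonneg (by linarith) (by norm_num),
        by rw [sub_nonneg, div_le_one (by norm_num)]; linarith,
        by ring, by ring⟩
    obtain rfl : z = 1 - x := by linarith
    have e :
        X0 ((1 / 2) + (1 / 2) * x) - q4 ((1 / 2) + (1 / 2) * x) * b5 ((1 / 2) + (1 / 2) * x) =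
        (18665737 / 64) * (1 - x) ^ 7 + (219036933 / 64) * x ^ 1 * (1 - x) ^ 6 +
        (138445545 / 8) * x ^ 2 * (1 - x) ^ 5 + (758178283 / 16) * x ^ 3 * (1 - x) ^ 4 +
        (301548297 / 4) * x ^ 4 * (1 - x) ^ 3 + (279235227 / 4) * x ^ 5 * (1 - x) ^ 2 +
        34977292 * x ^ 6 * (1 - x) ^ 1 + 7344789 * x ^ 7 := by
      simp only [X0, b5, q4]; ring
    rw [e]; positivity
  rcases le_total r 2 with h2 | h2
  · obtain ⟨x, z, hx, hz, hxz, rfl⟩ : ∃ x z : ℝ, 0 ≤ x ∧ 0 ≤ z ∧ x + z = 1 ∧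
        r = 1 + 1 * x := ⟨(r - 1) / 1, 1 - (r - 1) / 1,
        div_nonneg (by linarith) (by norm_num),
        by rw [sub_nonneg, div_le_one (by norm_num)]; linarith,
        by ring, by ring⟩
    obtain rfl : z = 1 - x := by linarith
    have e :
        X0 (1 + 1 * x) - q4 (1 + 1 * x) * b5 (1 + 1 * x) =
        7344789 * (1 - x) ^ 7 + 84285985 * x ^ 1 * (1 - x) ^ 6 +
        408217836 * x ^ 2 * (1 - x) ^ 5 + 1082388576 * x ^ 3 * (1 - x) ^ 4 +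
        1699191040 * x ^ 4 * (1 - x) ^ 3 + 1581756288 * x ^ 5 * (1 - x) ^ 2 +
        809667072 * x ^ 6 * (1 - x) ^ 1 + 176051200 * x ^ 7 := by
      simp only [X0, b5, q4]; ring
    rw [e]; positivity
  obtain ⟨y, hy, rfl⟩ : ∃ y, 0 ≤ y ∧ r = 2 + y := ⟨r - 2, by linarith, by ring⟩
  have e : X0 (2 + y) - q4 (2 + y) * b5 (2 + y) =
      176051200 + 422691328 * y ^ 1 + 420829056 * y ^ 2 + 226376320 * y ^ 3 + 71637856 * y ^ 4 +
      13433652 * y ^ 5 + 1389289 * y ^ 6 + 61312 * y ^ 7 := by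
    simp only [X0, b5, q4]; ring
  rw [e]; positivity

lemma f2_nonneg {r : ℝ} (hr2 : 2 ≤ r) :
    0 ≤ f0 r - 3 * q4 r * bb r := by
  obtain ⟨y, hy, rfl⟩ : ∃ y, 0 ≤ y ∧ r = 2 + y := ⟨r - 2, by linarith, by ring⟩
  have e : f0 (2 + y) - 3 * q4 (2 + y) * bb (2 + y) =
      10260480 + 108474880 * y ^ 1 + 153362048 * y ^ 2 + 96393344 * y ^ 3 + 33103920 * y ^ 4 +
      6495100 * y ^ 5 + 687907 * y ^ 6 + 30656 * y ^ 7 := by
    simp only [bb, f0, q4]; ring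
  rw [e]; positivity

lemma W_nonneg {r : ℝ} (hr : 0 ≤ r) (hr2 : r ≤ 2) :
    0 ≤ 7 * q4 r * bb r - (X0 r - q4 r * b5 r) := by
  obtain ⟨x, z, hx, hz, hxz, rfl⟩ : ∃ x z : ℝ, 0 ≤ x ∧ 0 ≤ z ∧ x + z = 1 ∧
      r = 0 + 2 * x := ⟨(r - 0) / 2, 1 - (r - 0) / 2,
      div_nonneg (by linarith) (by norm_num),
      by rw [sub_nonneg, div_le_one (by norm_num)]; linarith,
      by ring, by ring⟩
  obtain rfl : z = 1 - x := by linarith
  have e :
      7 * q4 (0 + 2 * x) * bb (0 + 2 * x) - (X0 (0 + 2 * x) - q4 (0 + 2 * x) * b5 (0 + 2 * x)) =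
      8520960 * (1 - x) ^ 7 + 103868160 * x ^ 1 * (1 - x) ^ 6 +
      525756096 * x ^ 2 * (1 - x) ^ 5 + 1421916864 * x ^ 3 * (1 - x) ^ 4 +
      2188070400 * x ^ 4 * (1 - x) ^ 3 + 1856443392 * x ^ 5 * (1 - x) ^ 2 +
      737145856 * x ^ 6 * (1 - x) ^ 1 + 69416960 * x ^ 7 := by
    simp only [X0, b5, bb, q4]; ring
  rw [e]; positivity

lemma Z_nonneg {r : ℝ} (hr : 0 ≤ r) (hr2 : r ≤ 2) :
    0 ≤ (q4 r * bb r + (X0 r - q4 r * b5 r)) * (7 * q4 r * bb r - (X0 r - q4 r * b5 r)) -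
      4 * r ^ 2 * (3 * q4 r * bb r - f0 r) ^ 2 := by
  rcases le_total r 1 with h0 | h0
  · obtain ⟨x, z, hx, hz, hxz, rfl⟩ : ∃ x z : ℝ, 0 ≤ x ∧ 0 ≤ z ∧ x + z = 1 ∧
        r = 0 + 1 * x := ⟨(r - 0) / 1, 1 - (r - 0) / 1,
        div_nonneg (by linarith) (by norm_num),
        by rw [sub_nonneg, div_le_one (by norm_num)]; linarith,
        by ring, by ring⟩
    obtain rfl : z = 1 - x := by linarith
    have e :
        (q4 (0 + 1 * x) * bb (0 + 1 * x) + (X0 (0 + 1 * x) -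
          q4 (0 + 1 * x) * b5 (0 + 1 * x))) * (7 * q4 (0 + 1 * x) * bb (0 + 1 * x) -
            (X0 (0 + 1 * x) - q4 (0 + 1 * x) * b5 (0 + 1 * x))) -
      4 * (0 + 1 * x) ^ 2 * (3 * q4 (0 + 1 * x) * bb (0 + 1 * x) - f0 (0 + 1 * x)) ^ 2 =
        13971647692800 * (1 - x) ^ 16 + 275964788736000 * x ^ 1 * (1 - x) ^ 15 +
        2532994619719680 * x ^ 2 * (1 - x) ^ 14 + 14318250421616640 * x ^ 3 * (1 - x) ^ 13 +
        55676787187302144 * x ^ 4 * (1 - x) ^ 12 + 157521758461784064 * x ^ 5 * (1 - x) ^ 11 +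
        334358068911852288 * x ^ 6 * (1 - x) ^ 10 + 540971839583877888 * x ^ 7 * (1 - x) ^ 9 +
        670824354687721632 * x ^ 8 * (1 - x) ^ 8 + 635588158264928064 * x ^ 9 * (1 - x) ^ 7 +
        455044405923219024 * x ^ 10 * (1 - x) ^ 6 + 241593219948431760 * x ^ 11 * (1 - x) ^ 5 +
        92889112416566767 * x ^ 12 * (1 - x) ^ 4 + 25476076557709404 * x ^ 13 * (1 - x) ^ 3 +
        5151199260103942 * x ^ 14 * (1 - x) ^ 2 + 833600265207300 * x ^ 15 * (1 - x) ^ 1 +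
        87969878951499 * x ^ 16 := by
      simp only [X0, b5, bb, f0, q4]; ring
    rw [e]; positivity
  obtain ⟨x, z, hx, hz, hxz, rfl⟩ : ∃ x z : ℝ, 0 ≤ x ∧ 0 ≤ z ∧ x + z = 1 ∧
      r = 1 + 1 * x := ⟨(r - 1) / 1, 1 - (r - 1) / 1,
      div_nonneg (by linarith) (by norm_num),
      by rw [sub_nonneg, div_le_one (by norm_num)]; linarith,
      by ring, by ring⟩
  obtain rfl : z = 1 - x := by linarith
  have e :
      (q4 (1 + 1 * x) * bb (1 + 1 * x) + (X0 (1 + 1 * x) -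
        q4 (1 + 1 * x) * b5 (1 + 1 * x))) * (7 * q4 (1 + 1 * x) * bb (1 + 1 * x) -
          (X0 (1 + 1 * x) - q4 (1 + 1 * x) * b5 (1 + 1 * x))) -
      4 * (1 + 1 * x) ^ 2 * (3 * q4 (1 + 1 * x) * bb (1 + 1 * x) - f0 (1 + 1 * x)) ^ 2 =
      87969878951499 * (1 - x) ^ 16 + 1981435861240668 * x ^ 1 * (1 - x) ^ 15 +
      22368733200604462 * x ^ 2 * (1 - x) ^ 14 + 162750449040850492 * x ^ 3 * (1 - x) ^ 13 +
      832925562307036031 * x ^ 4 * (1 - x) ^ 12 + 3129749845663807928 * x ^ 5 * (1 - x) ^ 11 +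
      8855030946646920200 * x ^ 6 * (1 - x) ^ 10 + 19156959198862013344 * x ^ 7 * (1 - x) ^ 9 +
      31945754957703960048 * x ^ 8 * (1 - x) ^ 8 + 41120694475190794752 * x ^ 9 * (1 - x) ^ 7 +
      40630520789487753216 * x ^ 10 * (1 - x) ^ 6 +
      30390265909309730816 * x ^ 11 * (1 - x) ^ 5 +
      16774548561031675904 * x ^ 12 * (1 - x) ^ 4 + 6541244953880166400 * x ^ 13 * (1 - x) ^ 3 +
      1668501678246854656 * x ^ 14 * (1 - x) ^ 2 + 239063670571663360 * x ^ 15 * (1 - x) ^ 1 +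
      12970736117350400 * x ^ 16 := by
    simp only [X0, b5, bb, f0, q4]; ring
  rw [e]; positivity

lemma d0_nonneg {r : ℝ} (hr : 0 ≤ r) :
    0 ≤ d0 r := by
  rcases le_total r (1 / 2) with h0 | h0
  · obtain ⟨x, z, hx, hz, hxz, rfl⟩ : ∃ x z : ℝ, 0 ≤ x ∧ 0 ≤ z ∧ x + z = 1 ∧
        r = 0 + (1 / 2) * x := ⟨(r - 0) / (1 / 2), 1 - (r - 0) / (1 / 2),
        div_nonneg (by linarith) (by norm_num),
        by rw [sub_nonneg, div_le_one (by norm_num)]; linarith,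
        by ring, by ring⟩
    obtain rfl : z = 1 - x := by linarith
    have e :
        d0 (0 + (1 / 2) * x) =
        591360 * (1 - x) ^ 9 + 3774720 * x ^ 1 * (1 - x) ^ 8 + 9611424 * x ^ 2 * (1 - x) ^ 7 +
        12344400 * x ^ 3 * (1 - x) ^ 6 + 9270714 * x ^ 4 * (1 - x) ^ 5 +
        7760595 * x ^ 5 * (1 - x) ^ 4 + (83972043 / 8) * x ^ 6 * (1 - x) ^ 3 +
        (158471375 / 16) * x ^ 7 * (1 - x) ^ 2 + (18686789 / 4) * x ^ 8 * (1 - x) ^ 1 +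
        (27445765 / 32) * x ^ 9 := by
      simp only [d0]; ring
    rw [e]; positivity
  rcases le_total r 1 with h1 | h1
  · obtain ⟨x, z, hx, hz, hxz, rfl⟩ : ∃ x z : ℝ, 0 ≤ x ∧ 0 ≤ z ∧ x + z = 1 ∧
        r = (1 / 2) + (1 / 2) * x := ⟨(r - (1 / 2)) / (1 / 2), 1 - (r - (1 / 2)) / (1 / 2),
        div_nonneg (by linarith) (by norm_num),
        by rw [sub_nonneg, div_le_one (by norm_num)]; linarith,
        by ring, by ring⟩
    obtain rfl : z = 1 - x := by linarith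
    have e :
        d0 ((1 / 2) + (1 / 2) * x) =
        (27445765 / 32) * (1 - x) ^ 9 + (172264729 / 16) * x ^ 1 * (1 - x) ^ 8 +
        (938611959 / 16) * x ^ 2 * (1 - x) ^ 7 + (725187683 / 4) * x ^ 3 * (1 - x) ^ 6 +
        (1399760305 / 4) * x ^ 4 * (1 - x) ^ 5 + 437659446 * x ^ 5 * (1 - x) ^ 4 +
        354866801 * x ^ 6 * (1 - x) ^ 3 + 179950588 * x ^ 7 * (1 - x) ^ 2 +
        51793140 * x ^ 8 * (1 - x) ^ 1 + 6447600 * x ^ 9 := by
      simp only [d0]; ring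
    rw [e]; positivity
  rcases le_total r (3 / 2) with h2 | h2
  · obtain ⟨x, z, hx, hz, hxz, rfl⟩ : ∃ x z : ℝ, 0 ≤ x ∧ 0 ≤ z ∧ x + z = 1 ∧
        r = 1 + (1 / 2) * x := ⟨(r - 1) / (1 / 2), 1 - (r - 1) / (1 / 2),
        div_nonneg (by linarith) (by norm_num),
        by rw [sub_nonneg, div_le_one (by norm_num)]; linarith,
        by ring, by ring⟩
    obtain rfl : z = 1 - x := by linarith
    have e :
        d0 (1 + (1 / 2) * x) =
        6447600 * (1 - x) ^ 9 + 64263660 * x ^ 1 * (1 - x) ^ 8 +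
        279714748 * x ^ 2 * (1 - x) ^ 7 + 696396951 * x ^ 3 * (1 - x) ^ 6 +
        1090142106 * x ^ 4 * (1 - x) ^ 5 + (4436869455 / 4) * x ^ 5 * (1 - x) ^ 4 +
        (2923143963 / 4) * x ^ 6 * (1 - x) ^ 3 + (4788943089 / 16) * x ^ 7 * (1 - x) ^ 2 +
        (1102120269 / 16) * x ^ 8 * (1 - x) ^ 1 + (217158375 / 32) * x ^ 9 := by
      simp only [d0]; ring
    rw [e]; positivity
  rcases le_total r 2 with h3 | h3
  · obtain ⟨x, z, hx, hz, hxz, rfl⟩ : ∃ x z : ℝ, 0 ≤ x ∧ 0 ≤ z ∧ x + z = 1 ∧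
        r = (3 / 2) + (1 / 2) * x := ⟨(r - (3 / 2)) / (1 / 2), 1 - (r - (3 / 2)) / (1 / 2),
        div_nonneg (by linarith) (by norm_num),
        by rw [sub_nonneg, div_le_one (by norm_num)]; linarith,
        by ring, by ring⟩
    obtain rfl : z = 1 - x := by linarith
    have e :
        d0 ((3 / 2) + (1 / 2) * x) =
        (217158375 / 32) * (1 - x) ^ 9 + (426152553 / 8) * x ^ 1 * (1 - x) ^ 8 +
        (2790421785 / 16) * x ^ 2 * (1 - x) ^ 7 + (2440185633 / 8) * x ^ 3 * (1 - x) ^ 6 +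
        303346785 * x ^ 4 * (1 - x) ^ 5 + 174912564 * x ^ 5 * (1 - x) ^ 4 +
        76341120 * x ^ 6 * (1 - x) ^ 3 + 52953344 * x ^ 7 * (1 - x) ^ 2 +
        34211840 * x ^ 8 * (1 - x) ^ 1 + 8929280 * x ^ 9 := by
      simp only [d0]; ring
    rw [e]; positivity
  obtain ⟨y, hy, rfl⟩ : ∃ y, 0 ≤ y ∧ r = 2 + y := ⟨r - 2, by linarith, by ring⟩
  have e : d0 (2 + y) =
      8929280 + 92303360 * y ^ 1 + 402850816 * y ^ 2 + 691682304 * y ^ 3 + 609796928 * y ^ 4 +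
      311256160 * y ^ 5 + 96180744 * y ^ 6 + 17813096 * y ^ 7 + 1824352 * y ^ 8 +
      79600 * y ^ 9 := by
    simp only [d0]; ring
  rw [e]; positivity

lemma d1_lo {r : ℝ} (hr : 0 ≤ r) (hr2 : r ≤ 2) :
    0 ≤ d1 r + 4 * r * d0 r := by
  rcases le_total r 1 with h0 | h0
  · obtain ⟨x, z, hx, hz, hxz, rfl⟩ : ∃ x z : ℝ, 0 ≤ x ∧ 0 ≤ z ∧ x + z = 1 ∧
        r = 0 + 1 * x := ⟨(r - 0) / 1, 1 - (r - 0) / 1,
        div_nonneg (by linarith) (by norm_num),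
        by rw [sub_nonneg, div_le_one (by norm_num)]; linarith,
        by ring, by ring⟩
    obtain rfl : z = 1 - x := by linarith
    have e :
        d1 (0 + 1 * x) + 4 * (0 + 1 * x) * d0 (0 + 1 * x) =
        16867200 * (1 - x) ^ 10 + 177146880 * x ^ 1 * (1 - x) ^ 9 +
        818730912 * x ^ 2 * (1 - x) ^ 8 + 2208158976 * x ^ 3 * (1 - x) ^ 7 +
        3900949512 * x ^ 4 * (1 - x) ^ 6 + 4813752576 * x ^ 5 * (1 - x) ^ 5 +
        4289515414 * x ^ 6 * (1 - x) ^ 4 + 2739444240 * x ^ 7 * (1 - x) ^ 3 +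
        1171814868 * x ^ 8 * (1 - x) ^ 2 + 289262016 * x ^ 9 * (1 - x) ^ 1 + 30205182 * x ^ 10 := by
      simp only [d0, d1]; ring
    rw [e]; positivity
  rcases le_total r (3 / 2) with h1 | h1
  · obtain ⟨x, z, hx, hz, hxz, rfl⟩ : ∃ x z : ℝ, 0 ≤ x ∧ 0 ≤ z ∧ x + z = 1 ∧
        r = 1 + (1 / 2) * x := ⟨(r - 1) / (1 / 2), 1 - (r - 1) / (1 / 2),
        div_nonneg (by linarith) (by norm_num),
        by rw [sub_nonneg, div_le_one (by norm_num)]; linarith,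
        by ring, by ring⟩
    obtain rfl : z = 1 - x := by linarith
    have e :
        d1 (1 + (1 / 2) * x) + 4 * (1 + (1 / 2) * x) * d0 (1 + (1 / 2) * x) =
        30205182 * (1 - x) ^ 10 + 308446722 * x ^ 1 * (1 - x) ^ 9 +
        (2797419573 / 2) * x ^ 2 * (1 - x) ^ 8 + 3691001136 * x ^ 3 * (1 - x) ^ 7 +
        (49901213321 / 8) * x ^ 4 * (1 - x) ^ 6 + (55965758397 / 8) * x ^ 5 * (1 - x) ^ 5 +
        (166840821507 / 32) * x ^ 6 * (1 - x) ^ 4 + (40154410317 / 16) * x ^ 7 * (1 - x) ^ 3 +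
        (5846801595 / 8) * x ^ 8 * (1 - x) ^ 2 + (1821979311 / 16) * x ^ 9 * (1 - x) ^ 1 +
        (239994087 / 32) * x ^ 10 := by
      simp only [d0, d1]; ring
    rw [e]; positivity
  rcases le_total r (7 / 4) with h2 | h2
  · obtain ⟨x, z, hx, hz, hxz, rfl⟩ : ∃ x z : ℝ, 0 ≤ x ∧ 0 ≤ z ∧ x + z = 1 ∧
        r = (3 / 2) + (1 / 4) * x := ⟨(r - (3 / 2)) / (1 / 4), 1 - (r - (3 / 2)) / (1 / 4),
        div_nonneg (by linarith) (by norm_num),
        by rw [sub_nonneg, div_le_one (by norm_num)]; linarith,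
        by ring, by ring⟩
    obtain rfl : z = 1 - x := by linarith
    have e :
        d1 ((3 / 2) + (1 / 4) * x) + 4 * ((3 / 2) + (1 / 4) * x) * d0 ((3 / 2) + (1 / 4) * x) =
        (239994087 / 32) * (1 - x) ^ 10 + (888965997 / 16) * x ^ 1 * (1 - x) ^ 9 +
        (22197928821 / 128) * x ^ 2 * (1 - x) ^ 8 + (38961190419 / 128) * x ^ 3 * (1 - x) ^ 7 +
        (191732861127 / 512) * x ^ 4 * (1 - x) ^ 6 + (58549614459 / 128) * x ^ 5 * (1 - x) ^ 5 +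
        (1248764618813 / 2048) * x ^ 6 * (1 - x) ^ 4 +
        (1321856365527 / 2048) * x ^ 7 * (1 - x) ^ 3 +
        (1776820223925 / 4096) * x ^ 8 * (1 - x) ^ 2 +
        (20694882141 / 128) * x ^ 9 * (1 - x) ^ 1 + (418418784651 / 16384) * x ^ 10 := by
      simp only [d0, d1]; ring
    rw [e]; positivity
  obtain ⟨x, z, hx, hz, hxz, rfl⟩ : ∃ x z : ℝ, 0 ≤ x ∧ 0 ≤ z ∧ x + z = 1 ∧
      r = (7 / 4) + (1 / 4) * x := ⟨(r - (7 / 4)) / (1 / 4), 1 - (r - (7 / 4)) / (1 / 4),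
      div_nonneg (by linarith) (by norm_num),
      by rw [sub_nonneg, div_le_one (by norm_num)]; linarith,
      by ring, by ring⟩
  obtain rfl : z = 1 - x := by linarith
  have e :
      d1 ((7 / 4) + (1 / 4) * x) + 4 * ((7 / 4) + (1 / 4) * x) * d0 ((7 / 4) + (1 / 4) * x) =
      (418418784651 / 16384) * (1 - x) ^ 10 + (1429857694743 / 4096) * x ^ 1 * (1 - x) ^ 9 +
      (2171353355001 / 1024) * x ^ 2 * (1 - x) ^ 8 +
      (15421951131129 / 2048) * x ^ 3 * (1 - x) ^ 7 +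
      (35469224814623 / 2048) * x ^ 4 * (1 - x) ^ 6 +
      (3453262102341 / 128) * x ^ 5 * (1 - x) ^ 5 + (461716678467 / 16) * x ^ 6 * (1 - x) ^ 4 +
      20950731688 * x ^ 7 * (1 - x) ^ 3 + 9890367024 * x ^ 8 * (1 - x) ^ 2 +
      2743958784 * x ^ 9 * (1 - x) ^ 1 + 340019200 * x ^ 10 := by
    simp only [d0, d1]; ring
  rw [e]; positivity

lemma d2_lo {r : ℝ} (hr : 0 ≤ r) (hr2 : r ≤ 2) :
    0 ≤ d2 r - 4 * r ^ 2 * d0 r := by
  rcases le_total r 1 with h0 | h0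
  · obtain ⟨x, z, hx, hz, hxz, rfl⟩ : ∃ x z : ℝ, 0 ≤ x ∧ 0 ≤ z ∧ x + z = 1 ∧
        r = 0 + 1 * x := ⟨(r - 0) / 1, 1 - (r - 0) / 1,
        div_nonneg (by linarith) (by norm_num),
        by rw [sub_nonneg, div_le_one (by norm_num)]; linarith,
        by ring, by ring⟩
    obtain rfl : z = 1 - x := by linarith
    have e :
        d2 (0 + 1 * x) - 4 * (0 + 1 * x) ^ 2 * d0 (0 + 1 * x) =
        24561600 * (1 - x) ^ 11 + 284280000 * x ^ 1 * (1 - x) ^ 10 +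
        1484366736 * x ^ 2 * (1 - x) ^ 9 + 4630073808 * x ^ 3 * (1 - x) ^ 8 +
        9600966948 * x ^ 4 * (1 - x) ^ 7 + 13863593172 * x ^ 5 * (1 - x) ^ 6 +
        14098723943 * x ^ 6 * (1 - x) ^ 5 + 9925348667 * x ^ 7 * (1 - x) ^ 4 +
        4622989482 * x ^ 8 * (1 - x) ^ 3 + 1324082218 * x ^ 9 * (1 - x) ^ 2 +
        214107371 * x ^ 10 * (1 - x) ^ 1 + 18019815 * x ^ 11 := by
      simp only [d0, d2]; ring
    rw [e]; positivity
  obtain ⟨x, z, hx, hz, hxz, rfl⟩ : ∃ x z : ℝ, 0 ≤ x ∧ 0 ≤ z ∧ x + z = 1 ∧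
      r = 1 + 1 * x := ⟨(r - 1) / 1, 1 - (r - 1) / 1,
      div_nonneg (by linarith) (by norm_num),
      by rw [sub_nonneg, div_le_one (by norm_num)]; linarith,
      by ring, by ring⟩
  obtain rfl : z = 1 - x := by linarith
  have e :
      d2 (1 + 1 * x) - 4 * (1 + 1 * x) ^ 2 * d0 (1 + 1 * x) =
      18019815 * (1 - x) ^ 11 + 182328559 * x ^ 1 * (1 - x) ^ 10 +
      1006294098 * x ^ 2 * (1 - x) ^ 9 + 4457319462 * x ^ 3 * (1 - x) ^ 8 +
      16226903387 * x ^ 4 * (1 - x) ^ 7 + 43868764307 * x ^ 5 * (1 - x) ^ 6 +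
      82906707612 * x ^ 6 * (1 - x) ^ 5 + 106714357448 * x ^ 7 * (1 - x) ^ 4 +
      91102107008 * x ^ 8 * (1 - x) ^ 3 + 48995666304 * x ^ 9 * (1 - x) ^ 2 +
      14855073280 * x ^ 10 * (1 - x) ^ 1 + 1896350720 * x ^ 11 := by
    simp only [d0, d2]; ring
  rw [e]; positivity

lemma d1_hi {r : ℝ} (hr2 : 2 ≤ r) :
    0 ≤ d1 r := by
  obtain ⟨y, hy, rfl⟩ : ∃ y, 0 ≤ y ∧ r = 2 + y := ⟨r - 2, by linarith, by ring⟩
  have e : d1 (2 + y) =
      268584960 + 1850788864 * y ^ 1 + 4337611520 * y ^ 2 + 5142644224 * y ^ 3 +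
      3603894832 * y ^ 4 + 1587255896 * y ^ 5 + 444911710 * y ^ 6 + 77123512 * y ^ 7 +
      7542656 * y ^ 8 + 318400 * y ^ 9 := by
    simp only [d1]; ring
  rw [e]; positivity

lemma d2_hi {r : ℝ} (hr2 : 2 ≤ r) :
    0 ≤ d2 r := by
  obtain ⟨y, hy, rfl⟩ : ∃ y, 0 ≤ y ∧ r = 2 + y := ⟨r - 2, by linarith, by ring⟩
  have e : d2 (2 + y) =
      2039219200 + 7624506880 * y ^ 1 + 12702407040 * y ^ 2 + 12160204288 * y ^ 3 +
      7363503304 * y ^ 4 + 2922990300 * y ^ 5 + 759731155 * y ^ 6 + 124553272 * y ^ 7 +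
      11681856 * y ^ 8 + 477600 * y ^ 9 := by
    simp only [d2]; ring
  rw [e]; positivity

lemma d3_nonneg {r : ℝ} (hr : 0 ≤ r) :
    0 ≤ d3 r := by
  simp only [d3]; positivity

lemma d4_nonneg {r : ℝ} (hr : 0 ≤ r) :
    0 ≤ d4 r := by
  simp only [d4]; positivity

lemma q0_nonneg {r : ℝ} (hr : 0 ≤ r) :
    0 ≤ A0 r + 4 * S2 r - 2 * K1 r + C2 r := by
  rcases le_total r 2 with h0 | h0
  · obtain ⟨x, z, hx, hz, hxz, rfl⟩ : ∃ x z : ℝ, 0 ≤ x ∧ 0 ≤ z ∧ x + z = 1 ∧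
        r = 0 + 2 * x := ⟨(r - 0) / 2, 1 - (r - 0) / 2,
        div_nonneg (by linarith) (by norm_num),
        by rw [sub_nonneg, div_le_one (by norm_num)]; linarith,
        by ring, by ring⟩
    obtain rfl : z = 1 - x := by linarith
    have e :
        A0 (0 + 2 * x) + 4 * S2 (0 + 2 * x) - 2 * K1 (0 + 2 * x) + C2 (0 + 2 * x) =
        37484160 * (1 - x) ^ 9 + 440599680 * x ^ 1 * (1 - x) ^ 8 +
        2288213376 * x ^ 2 * (1 - x) ^ 7 + 6901622400 * x ^ 3 * (1 - x) ^ 6 +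
        13277010432 * x ^ 4 * (1 - x) ^ 5 + 16590705408 * x ^ 5 * (1 - x) ^ 4 +
        12798180352 * x ^ 6 * (1 - x) ^ 3 + 5198873600 * x ^ 7 * (1 - x) ^ 2 +
        761131008 * x ^ 8 * (1 - x) ^ 1 + 111728640 * x ^ 9 := by
      simp only [A0, C2, K1, S2, X0, b5, bb, f0, q4]; ring
    rw [e]; positivity
  obtain ⟨y, hy, rfl⟩ : ∃ y, 0 ≤ y ∧ r = 2 + y := ⟨r - 2, by linarith, by ring⟩
  have e : A0 (2 + y) + 4 * S2 (2 + y) - 2 * K1 (2 + y) + C2 (2 + y) =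
      111728640 + 122213376 * y ^ 1 + 783014144 * y ^ 2 + 1458434048 * y ^ 3 +
      1277027568 * y ^ 4 + 639469544 * y ^ 5 + 194679266 * y ^ 6 + 35748816 * y ^ 7 +
      3648704 * y ^ 8 + 159200 * y ^ 9 := by
    simp only [A0, C2, K1, S2, X0, b5, bb, f0, q4]; ring
  rw [e]; positivity

lemma q1_nonneg {r : ℝ} (hr : 0 ≤ r) :
    0 ≤ 3 * A0 r + 8 * S2 r - 5 * K1 r + C2 r := by
  rcases le_total r 1 with h0 | h0
  · obtain ⟨x, z, hx, hz, hxz, rfl⟩ : ∃ x z : ℝ, 0 ≤ x ∧ 0 ≤ z ∧ x + z = 1 ∧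
        r = 0 + 1 * x := ⟨(r - 0) / 1, 1 - (r - 0) / 1,
        div_nonneg (by linarith) (by norm_num),
        by rw [sub_nonneg, div_le_one (by norm_num)]; linarith,
        by ring, by ring⟩
    obtain rfl : z = 1 - x := by linarith
    have e :
        3 * A0 (0 + 1 * x) + 8 * S2 (0 + 1 * x) - 5 * K1 (0 + 1 * x) + C2 (0 + 1 * x) =
        65251200 * (1 - x) ^ 9 + 654787200 * x ^ 1 * (1 - x) ^ 8 +
        2907029088 * x ^ 2 * (1 - x) ^ 7 + 7496154912 * x ^ 3 * (1 - x) ^ 6 +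
        12367194696 * x ^ 4 * (1 - x) ^ 5 + 13509698424 * x ^ 5 * (1 - x) ^ 4 +
        9723604242 * x ^ 6 * (1 - x) ^ 3 + 4407565502 * x ^ 7 * (1 - x) ^ 2 +
        1128495710 * x ^ 8 * (1 - x) ^ 1 + 123846498 * x ^ 9 := by
      simp only [A0, C2, K1, S2, X0, b5, bb, f0, q4]; ring
    rw [e]; positivity
  rcases le_total r 2 with h1 | h1
  · obtain ⟨x, z, hx, hz, hxz, rfl⟩ : ∃ x z : ℝ, 0 ≤ x ∧ 0 ≤ z ∧ x + z = 1 ∧
        r = 1 + 1 * x := ⟨(r - 1) / 1, 1 - (r - 1) / 1,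
        div_nonneg (by linarith) (by norm_num),
        by rw [sub_nonneg, div_le_one (by norm_num)]; linarith,
        by ring, by ring⟩
    obtain rfl : z = 1 - x := by linarith
    have e :
        3 * A0 (1 + 1 * x) + 8 * S2 (1 + 1 * x) - 5 * K1 (1 + 1 * x) + C2 (1 + 1 * x) =
        123846498 * (1 - x) ^ 9 + 1100741254 * x ^ 1 * (1 - x) ^ 8 +
        4185529854 * x ^ 2 * (1 - x) ^ 7 + 8815639922 * x ^ 3 * (1 - x) ^ 6 +
        11170411576 * x ^ 4 * (1 - x) ^ 5 + 8865760320 * x ^ 5 * (1 - x) ^ 4 +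
        4940997632 * x ^ 6 * (1 - x) ^ 3 + 2672451328 * x ^ 7 * (1 - x) ^ 2 +
        1426228224 * x ^ 8 * (1 - x) ^ 1 + 392898560 * x ^ 9 := by
      simp only [A0, C2, K1, S2, X0, b5, bb, f0, q4]; ring
    rw [e]; positivity
  obtain ⟨y, hy, rfl⟩ : ∃ y, 0 ≤ y ∧ r = 2 + y := ⟨r - 2, by linarith, by ring⟩
  have e : 3 * A0 (2 + y) + 8 * S2 (2 + y) - 5 * K1 (2 + y) + C2 (2 + y) =
      392898560 + 2109858816 * y ^ 1 + 5406973696 * y ^ 2 + 6835250432 * y ^ 3 +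
      4977690432 * y ^ 4 + 2248464904 * y ^ 5 + 642139154 * y ^ 6 + 112994952 * y ^ 7 +
      11191360 * y ^ 8 + 477600 * y ^ 9 := by
    simp only [A0, C2, K1, S2, X0, b5, bb, f0, q4]; ring
  rw [e]; positivity

lemma q2_nonneg {r : ℝ} (hr : 0 ≤ r) :
    0 ≤ 3 * A0 r + 5 * S2 r - 4 * K1 r + 1 / 4 * C2 r := by
  rcases le_total r 2 with h0 | h0
  · obtain ⟨x, z, hx, hz, hxz, rfl⟩ : ∃ x z : ℝ, 0 ≤ x ∧ 0 ≤ z ∧ x + z = 1 ∧
        r = 0 + 2 * x := ⟨(r - 0) / 2, 1 - (r - 0) / 2,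
        div_nonneg (by linarith) (by norm_num),
        by rw [sub_nonneg, div_le_one (by norm_num)]; linarith,
        by ring, by ring⟩
    obtain rfl : z = 1 - x := by linarith
    have e :
        3 * A0 (0 + 2 * x) + 5 * S2 (0 + 2 * x) - 4 * K1 (0 + 2 * x) + 1 / 4 * C2 (0 + 2 * x) =
        43186080 * (1 - x) ^ 9 + 459735840 * x ^ 1 * (1 - x) ^ 8 +
        2128404480 * x ^ 2 * (1 - x) ^ 7 + 5638735488 * x ^ 3 * (1 - x) ^ 6 +
        9394276704 * x ^ 4 * (1 - x) ^ 5 + 9877916256 * x ^ 5 * (1 - x) ^ 4 +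
        5859247616 * x ^ 6 * (1 - x) ^ 3 + 1638529792 * x ^ 7 * (1 - x) ^ 2 +
        1189382656 * x ^ 8 * (1 - x) ^ 1 + 1244111360 * x ^ 9 := by
      simp only [A0, C2, K1, S2, X0, b5, bb, f0, q4]; ring
    rw [e]; positivity
  obtain ⟨y, hy, rfl⟩ : ∃ y, 0 ≤ y ∧ r = 2 + y := ⟨r - 2, by linarith, by ring⟩
  have e : 3 * A0 (2 + y) + 5 * S2 (2 + y) - 4 * K1 (2 + y) + 1 / 4 * C2 (2 + y) =
      1244111360 + 5003809792 * y ^ 1 + 9227869376 * y ^ 2 + 9601637600 * y ^ 3 +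
      6205259926 * y ^ 4 + 2592386828 * y ^ 5 + 701629799 * y ^ 6 + 118804768 * y ^ 7 +
      11436608 * y ^ 8 + 477600 * y ^ 9 := by
    simp only [A0, C2, K1, S2, X0, b5, bb, f0, q4]; ring
  rw [e]; positivity

lemma q3_nonneg {r : ℝ} (hr : 0 ≤ r) :
    0 ≤ A0 r + S2 r - K1 r := by
  have e : A0 r + S2 r - K1 r =
      10973760 + 9352320 * r ^ 1 + 2308176 * r ^ 2 + 2952576 * r ^ 3 + 2822892 * r ^ 4 +
      647928 * r ^ 5 + 1489287 * r ^ 6 + 2180200 * r ^ 7 + 1028352 * r ^ 8 + 159200 * r ^ 9 := by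
    simp only [A0, K1, S2, X0, b5, bb, f0, q4]; ring
  rw [e]; positivity

lemma m0_nonneg {r : ℝ} (hr : 0 ≤ r) :
    0 ≤ A0 r + S2 r - K1 r - q4 r * bb r / 2 := by
  have e : A0 r + S2 r - K1 r - q4 r * bb r / 2 =
      10338720 + 7851840 * r ^ 1 + 894816 * r ^ 2 + 2289456 * r ^ 3 + 2668002 * r ^ 4 +
      633528 * r ^ 5 + 1489287 * r ^ 6 + 2180200 * r ^ 7 + 1028352 * r ^ 8 + 159200 * r ^ 9 := by
    simp only [A0, K1, S2, X0, b5, bb, f0, q4]; ring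
  rw [e]; positivity

lemma m1_nonneg {r : ℝ} (hr : 0 ≤ r) :
    0 ≤ 2 * A0 r - K1 r - q4 r * bb r := by
  have e : 2 * A0 r - K1 r - q4 r * bb r =
      14857920 + 18503040 * r ^ 1 + 16842720 * r ^ 2 + 19623264 * r ^ 3 + 17611404 * r ^ 4 +
      11626272 * r ^ 5 + 9130492 * r ^ 6 + 6307560 * r ^ 7 + 2301952 * r ^ 8 + 318400 * r ^ 9 := by
    simp only [A0, K1, X0, bb, f0, q4]; ring
  rw [e]; positivity

lemma m2_nonneg {r : ℝ} (hr : 0 ≤ r) :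
    0 ≤ A0 r - q4 r * bb r / 2 := by
  have e : A0 r - q4 r * bb r / 2 =
      7428960 + 14627520 * r ^ 1 + 19173360 * r ^ 2 + 21271920 * r ^ 3 + 18593478 * r ^ 4 +
      12905136 * r ^ 5 + 8172126 * r ^ 6 + 4188672 * r ^ 7 + 1273600 * r ^ 8 + 159200 * r ^ 9 := by
    simp only [A0, X0, bb, f0, q4]; ring
  rw [e]; positivity

lemma neg_nonneg {r : ℝ} (hr : 0 ≤ r) :
    0 ≤ 8 * f0 r - X0 r := by
  have e : 8 * f0 r - X0 r =
      4032000 + 8064000 * r ^ 1 + 10293360 * r ^ 2 + 10967520 * r ^ 3 + 9374184 * r ^ 4 +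
      5186168 * r ^ 5 + 1538863 * r ^ 6 + 183936 * r ^ 7 := by
    simp only [X0, f0]; ring
  rw [e]; positivity

end

end Vale.Agent.P219.CH.Gen.Nine
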