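import Vale.Agent.P219.CH.Gen.Cert.Eight
import Vale.Agent.P219.CH.Gen.Cert.Ten.Moments
import Vale.Agent.P219.CH.Gen.Cert.Ten.Reg

/-!
P219: the certificate in dimension ten,
`252000 K(r,c) = 7000 (1 - c₊²) r⁻⁵ + (4830 - 4492 c₊²) r⁻³ + 2435 r⁻¹`, `a = 239/10500`,
`g c = -2/3 c - 16/45 c³ - 152/375 c⁵ + 3904/7875 c⁷`.
-/

namespace Vale.Agent.P219.CH.Gen.Ten

open MeasureTheory Set Filter Topology Vale.Agent.P219.CH.Core
open scoped ContDiff

noncomputable section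

/-- A continuation of `t ↦ t` beyond `1`, at most `1 + ε`. -/
def cap (ε t : ℝ) : ℝ := if t ≤ 1 then t else 1 + ε * (t - 1) / (ε + (t - 1))

lemma hasDerivAt_cap {ε : ℝ} (hε : 0 < ε) (t : ℝ) :
    HasDerivAt (cap ε) (ε ^ 2 / (ε + max (t - 1) 0) ^ 2) t := by
  have hr : ∀ x, (1 : ℝ) ≤ x → HasDerivAt (fun y => 1 + ε * (y - 1) / (ε + (y - 1)))
      (ε ^ 2 / (ε + (x - 1)) ^ 2) x := fun x hx => by
    have hne : ε + (x - 1) ≠ 0 := by linarith
    have h := ((((hasDerivAt_id x).sub_const 1).const_mul ε).div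
      (((hasDerivAt_id x).sub_const 1).const_add ε) hne).const_add 1
    refine h.congr_deriv ?_
    simp only [id_eq]
    ring
  rcases lt_trichotomy t 1 with h | h | h
  · rw [max_eq_right (by linarith), add_zero, div_self (pow_pos hε 2).ne']
    refine (hasDerivAt_id t).congr_of_eventuallyEq ?_
    filter_upwards [Iio_mem_nhds h] with y hy
    simp [cap, le_of_lt (show y < 1 from hy)]
  · subst h
    rw [sub_self, max_self, add_zero, div_self (pow_pos hε 2).ne']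
    have h1 : HasDerivWithinAt (cap ε) 1 (Iic 1) 1 :=
      (hasDerivAt_id (1 : ℝ)).hasDerivWithinAt.congr
        (fun y hy => by simp [cap, show y ≤ 1 from hy]) (by simp [cap])
    have h2 : HasDerivWithinAt (cap ε) 1 (Ici 1) 1 := by
      have h := ((hr 1 le_rfl).hasDerivWithinAt (s := Ici 1)).congr (f₁ := cap ε)
        (fun y hy => by
          rcases (show (1 : ℝ) ≤ y from hy).eq_or_lt with rfl | h'
          · simp [cap]
          · simp [cap, not_le.2 h']) (by simp [cap])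
      rwa [sub_self, add_zero, div_self (pow_pos hε 2).ne'] at h
    have h3 := h1.union h2
    rwa [Iic_union_Ici, hasDerivWithinAt_univ] at h3
  · rw [max_eq_left (by linarith)]
    refine (hr t h.le).congr_of_eventuallyEq ?_
    filter_upwards [Ioi_mem_nhds h] with y hy
    simp [cap, not_le.2 (show 1 < y from hy)]

lemma contDiff_cap {ε : ℝ} (hε : 0 < ε) : ContDiff ℝ 1 (cap ε) := by
  refine contDiff_one_iff_deriv.2 ⟨fun p => (hasDerivAt_cap hε p).differentiableAt, ?_⟩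
  rw [funext fun p => (hasDerivAt_cap hε p).deriv]
  refine continuous_const.div (by fun_prop) fun t => pow_ne_zero 2 ?_
  have := le_max_right (t - 1) 0
  linarith

lemma cap_le {ε : ℝ} (hε : 0 < ε) (t : ℝ) : cap ε t ≤ 1 + ε := by
  unfold cap
  split_ifs with h
  · linarith
  · have h1 : ε * (t - 1) / (ε + (t - 1)) ≤ ε := by
      rw [div_le_iff₀ (by linarith [not_le.1 h])]
      nlinarith
    linarith

/-- The profile `K / r` in `S = r²`, `q = (r c₊)²`. -/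
def core (ε S q : ℝ) : ℝ :=
  (7000 * (1 - cap ε (q / S)) / S ^ 3 + (4830 - 4492 * cap ε (q / S)) / S ^ 2 + 2435 / S) / 252000

/-- The overshoot of the cap. -/
def eps (σ : ℝ) : ℝ := min (σ ^ 2 / 100) (1 / 1000)

lemma eps_pos {σ : ℝ} (hσ : 0 < σ) : 0 < eps σ := lt_min (by positivity) (by norm_num)

/-- The regularised field. -/
def psi (σ s p : ℝ) : ℝ := core (eps σ) (Cert.shift σ s) (Eight.sqPos p)

lemma contDiff_psi {σ : ℝ} (hσ : 0 < σ) : ContDiff ℝ 1 (Function.uncurry (psi σ)) := by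
  have hS : ContDiff ℝ 1 fun z : ℝ × ℝ => Cert.shift σ z.1 :=
    (Eight.contDiff_shift hσ).comp contDiff_fst
  have hq : ContDiff ℝ 1 fun z : ℝ × ℝ => Eight.sqPos z.2 :=
    Eight.contDiff_sqPos.comp contDiff_snd
  have hne : ∀ z : ℝ × ℝ, Cert.shift σ z.1 ≠ 0 := fun z => (Cert.shift_pos hσ z.1).ne'
  have h1 : ContDiff ℝ 1 fun z : ℝ × ℝ => cap (eps σ) (Eight.sqPos z.2 / Cert.shift σ z.1) :=
    (contDiff_cap (eps_pos hσ)).comp (hq.div hS hne)
  exact ((((contDiff_const.mul (contDiff_const.sub h1)).div (hS.pow 3)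
    fun z => pow_ne_zero 3 (hne z)).add ((contDiff_const.sub (contDiff_const.mul h1)).div (hS.pow 2)
    fun z => pow_ne_zero 2 (hne z))).add (contDiff_const.div hS hne)).div_const _

lemma psi_nonneg {σ : ℝ} (hσ : 0 < σ) {s : ℝ} (hs : 0 ≤ s) (p : ℝ) : 0 ≤ psi σ s p := by
  set S := Cert.shift σ s with hS
  have hSσ : σ ^ 2 ≤ S := by
    rw [hS, Cert.shift]
    split_ifs with h
    · have : s = 0 := le_antisymm h hs
      subst this; field_simp; norm_num
    · linarith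
  have hS0 : 0 < S := Cert.shift_pos hσ s
  set t := cap (eps σ) (Eight.sqPos p / S) with ht
  have h1 : t ≤ 1 + eps σ := cap_le (eps_pos hσ) _
  have h2 : eps σ ≤ σ ^ 2 / 100 := min_le_left _ _
  have h3 : eps σ ≤ 1 / 1000 := min_le_right _ _
  have key : 0 ≤ 7000 * (1 - t) + (4830 - 4492 * t) * S := by
    have : 333 * S ≤ (4830 - 4492 * t) * S :=
      mul_le_mul_of_nonneg_right (by linarith) hS0.le
    linarith
  unfold psi core
  rw [← hS, ← ht]
  have e : 7000 * (1 - t) / S ^ 3 + (4830 - 4492 * t) / S ^ 2 =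
      (7000 * (1 - t) + (4830 - 4492 * t) * S) / S ^ 3 := by field_simp
  rw [e]
  positivity

/-- The slices of `psi` at `(r², r c)`. -/
lemma psi_at {σ : ℝ} (hσ : 0 < σ) {r c : ℝ} (hr : 0 ≤ r) (hc : |c| ≤ 1) :
    psi σ (r ^ 2) (r * c) =
      (7000 * (1 - r ^ 2 * max c 0 ^ 2 / (σ ^ 2 + r ^ 2)) / (σ ^ 2 + r ^ 2) ^ 3 +
        (4830 - 4492 * (r ^ 2 * max c 0 ^ 2 / (σ ^ 2 + r ^ 2))) / (σ ^ 2 + r ^ 2) ^ 2 +
        2435 / (σ ^ 2 + r ^ 2)) / 252000 ∧
    dS (psi σ) r c = (-21000 / (σ ^ 2 + r ^ 2) ^ 4 - 9660 / (σ ^ 2 + r ^ 2) ^ 3 -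
      2435 / (σ ^ 2 + r ^ 2) ^ 2 + 28000 * (r ^ 2 * max c 0 ^ 2) / (σ ^ 2 + r ^ 2) ^ 5 +
      13476 * (r ^ 2 * max c 0 ^ 2) / (σ ^ 2 + r ^ 2) ^ 4) / 252000 ∧
    dP (psi σ) r c = -(2 * (r * max c 0) * (7000 / (σ ^ 2 + r ^ 2) ^ 4 +
      4492 / (σ ^ 2 + r ^ 2) ^ 3)) / 252000 := by
  set S := σ ^ 2 + r ^ 2 with hSdef
  have hS : 0 < S := by positivity
  have hε := eps_pos hσ
  have hsh : Cert.shift σ (r ^ 2) = S := Cert.shift_sq hσ r
  have hmax : max (r * c) 0 = r * max c 0 := by rw [mul_max_of_nonneg _ _ hr, mul_zero]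
  have hq : Eight.sqPos (r * c) = r ^ 2 * max c 0 ^ 2 := by rw [Eight.sqPos, hmax, mul_pow]
  have ht : r ^ 2 * max c 0 ^ 2 / S ≤ 1 := by
    rw [div_le_one hS]
    have h1 : max c 0 ^ 2 ≤ 1 :=
      pow_le_one₀ (le_max_right _ _) (max_le ((le_abs_self c).trans hc) zero_le_one)
    nlinarith [sq_nonneg σ, mul_le_mul_of_nonneg_left h1 (sq_nonneg r)]
  have hcap0 : cap (eps σ) (r ^ 2 * max c 0 ^ 2 / S) = r ^ 2 * max c 0 ^ 2 / S := if_pos ht
  have hd := ((contDiff_psi hσ).differentiable one_ne_zero (r ^ 2, r * c)).hasFDerivAt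
  have hcap : HasDerivAt (cap (eps σ)) 1 (r ^ 2 * max c 0 ^ 2 / S) := by
    have := hasDerivAt_cap hε (r ^ 2 * max c 0 ^ 2 / S)
    rwa [max_eq_right (by linarith), add_zero, div_self (pow_pos hε 2).ne'] at this
  have hshift : HasDerivAt (Cert.shift σ) 1 (r ^ 2) := by
    have := Cert.hasDerivAt_shift hσ (r ^ 2)
    rwa [max_eq_right (by nlinarith), add_zero, div_self (pow_pos hσ 2).ne', one_pow] at this
  refine ⟨by rw [psi, core, hsh, hq, hcap0], ?_, ?_⟩
  · have hline : HasDerivAt (fun x : ℝ => (x, r * c)) ((1 : ℝ), (0 : ℝ)) (r ^ 2) :=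
      (hasDerivAt_id (r ^ 2)).prodMk (hasDerivAt_const _ (r * c))
    have h1 : HasDerivAt (fun x => psi σ x (r * c)) (dS (psi σ) r c) (r ^ 2) := by
      have := hd.comp_hasDerivAt (r ^ 2) hline
      exact this
    have hdiv := (hasDerivAt_const S (r ^ 2 * max c 0 ^ 2)).div (hasDerivAt_id S) hS.ne'
    have hT := hcap.comp S hdiv
    have h2 : HasDerivAt (fun x => core (eps σ) x (r ^ 2 * max c 0 ^ 2))
        ((-21000 / S ^ 4 - 9660 / S ^ 3 - 2435 / S ^ 2 +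
          28000 * (r ^ 2 * max c 0 ^ 2) / S ^ 5 +
          13476 * (r ^ 2 * max c 0 ^ 2) / S ^ 4) / 252000) S := by
      have := ((((hT.const_sub 1).const_mul 7000).div ((hasDerivAt_id S).pow 3)
        (pow_ne_zero 3 hS.ne')).add (((hT.const_mul 4492).const_sub 4830).div
        ((hasDerivAt_id S).pow 2) (pow_ne_zero 2 hS.ne'))).add
        ((hasDerivAt_const S (2435 : ℝ)).div (hasDerivAt_id S) hS.ne')
      refine (this.div_const 252000).congr_deriv ?_
      simp only [Function.comp_apply, Pi.pow_apply, id_eq, hcap0]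
      push_cast
      field_simp
      ring
    have h3 := h2.comp_of_eq (r ^ 2) hshift hsh.symm
    simp only [mul_one] at h3
    refine h1.unique ?_
    unfold psi
    rw [hq]
    exact h3
  · have h1 : HasDerivAt (fun x => psi σ (r ^ 2) x) (dP (psi σ) r c) (r * c) :=
      hd.comp_hasDerivAt (r * c) ((hasDerivAt_const _ (r ^ 2)).prodMk (hasDerivAt_id (r * c)))
    have h3 : HasDerivAt (fun x => psi σ (r ^ 2) x)
        (-(2 * (r * max c 0) * (7000 / S ^ 4 + 4492 / S ^ 3)) / 252000) (r * c) := by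
      have hin := (Eight.hasDerivAt_sqPos (r * c)).div_const S
      have hcap' : HasDerivAt (cap (eps σ)) 1 (Eight.sqPos (r * c) / S) := by rw [hq]; exact hcap
      have hT := hcap'.comp (r * c) hin
      have := (((((hT.const_sub 1).const_mul 7000).div_const (S ^ 3)).add
        (((hT.const_mul 4492).const_sub 4830).div_const (S ^ 2))).add_const
          (2435 / S)).div_const 252000
      unfold psi core
      rw [hsh]
      refine this.congr_deriv ?_
      rw [hmax]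
      field_simp
      ring
    exact h1.unique h3

/-- The bound of the root term. -/
lemma rootBound {c d : ℝ} (hc : 0 ≤ c) (hc1 : c ≤ 1) (hd : 0 ≤ d) (hd1 : d ≤ 1) :
    RootBound c d (Real.sqrt (1 - c ^ 2) * Real.sqrt (1 - d ^ 2)) := by
  have a : 0 ≤ 1 - c ^ 2 := by nlinarith
  have b : 0 ≤ 1 - d ^ 2 := by nlinarith
  set m := Real.sqrt (1 - c ^ 2) * Real.sqrt (1 - d ^ 2) with hm
  have hm2 : m ^ 2 = (1 - c ^ 2) * (1 - d ^ 2) := by
    rw [hm, mul_pow, Real.sq_sqrt a, Real.sq_sqrt b]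
  have hm0 : 0 ≤ m := by positivity
  have hmean : m ≤ (2 - c ^ 2 - d ^ 2) / 2 := by
    nlinarith [sq_nonneg (Real.sqrt (1 - c ^ 2) - Real.sqrt (1 - d ^ 2)),
      Real.sq_sqrt a, Real.sq_sqrt b]
  refine ⟨by nlinarith [sq_nonneg (c - d)], ?_, hmean⟩
  set h := (c + d) / 2 with hh
  have hs : c + d = 2 * h := by rw [hh]; ring
  have hh1 : h ≤ 1 := by rw [hh]; linarith
  have hh0 : 0 ≤ h := by rw [hh]; linarith
  set M := (1 - h ^ 2) ^ 2 + (1 + h ^ 2) * (c * d - h ^ 2) with hM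
  have hM0 : 0 ≤ M := by
    have e : M = (1 + h ^ 2) * (1 + c * d) - 4 * h ^ 2 := by simp only [hM]; ring
    have h1 : 2 * h ≤ 1 + c * d := by nlinarith [mul_nonneg (sub_nonneg.2 hc1) (sub_nonneg.2 hd1)]
    rw [e]
    nlinarith [mul_le_mul_of_nonneg_left h1 (show 0 ≤ 1 + h ^ 2 by positivity),
      mul_nonneg hh0 (sq_nonneg (1 - h))]
  refine (abs_le_of_sq_le_sq' ?_ hM0).2
  have e : M ^ 2 - (m * (1 - h ^ 2)) ^ 2 = 4 * h ^ 2 * (1 + c * d - (1 + h ^ 2)) ^ 2 := by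
    rw [mul_pow, hm2, show (1 - c ^ 2) * (1 - d ^ 2) = (1 + c * d) ^ 2 - (c + d) ^ 2 by ring, hs]
    simp only [hM]
    ring
  nlinarith [mul_nonneg (sq_nonneg h) (sq_nonneg (1 + c * d - (1 + h ^ 2)))]

/-- The kernel at scale `R⁶` is the regularised polynomial. -/
lemma kernel_eq {σ : ℝ} (hσ : 0 < σ) {r c d : ℝ} (hr : 0 ≤ r) (hc : |c| ≤ 1) :
    252000 * Real.sqrt (σ ^ 2 + r ^ 2) ^ 6 * kernel 10 (239 / 10500) (psi σ) r c d =
      Treg r (Real.sqrt (σ ^ 2 + r ^ 2)) (r ^ 2 / Real.sqrt (σ ^ 2 + r ^ 2) ^ 2) (max c 0) d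
        (Real.sqrt (1 - c ^ 2) * Real.sqrt (1 - d ^ 2)) := by
  obtain ⟨h0, hs, hp⟩ := psi_at hσ hr hc
  set R := Real.sqrt (σ ^ 2 + r ^ 2) with hRdef
  have hS : 0 < σ ^ 2 + r ^ 2 := by positivity
  have hR0 : 0 < R := Real.sqrt_pos.2 hS
  have hR2 : σ ^ 2 + r ^ 2 = R ^ 2 := (Real.sq_sqrt hS.le).symm
  rw [hR2] at h0 hs hp
  set u := max c 0 with hu
  have hu0 : 0 ≤ u := le_max_right _ _
  have hab : |dP (psi σ) r c| =
      2 * (r * u) * (7000 / (R ^ 2) ^ 4 + 4492 / (R ^ 2) ^ 3) / 252000 := by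
    rw [hp, neg_div, abs_neg, abs_of_nonneg (by positivity)]
  have hcu : c * u = u ^ 2 := by
    rcases le_total c 0 with h | h
    · simp [hu, max_eq_right h]
    · simp [hu, max_eq_left h, sq]
  rw [kernel, geom, hab, h0, hs, hp, mul_assoc _ (Real.sqrt (1 - c ^ 2)), Treg]
  push_cast
  field_simp
  linear_combination (-(21000 * R ^ 2 * r ^ 2 * (1 - d ^ 2) * (7000 + 4492 * R ^ 2))) * hcu

/-- Lower bounds for the two regularised kernels. -/
lemma kernel_sum {σ : ℝ} (hσ : 0 < σ) {r c d : ℝ} (hr : 0 ≤ r) (hc : |c| ≤ 1) (hd : |d| ≤ 1) :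
    ∃ R m : ℝ, 0 < R ∧ r ≤ R ∧ R ≤ r + σ ∧ 0 ≤ m ∧ m ≤ (2 - c ^ 2 - d ^ 2) / 2 ∧
      (0 ≤ c → 0 ≤ d → RootBound c d m) ∧
      T R (max c 0) d m + T R (max d 0) c m ≤ 252000 * R ^ 6 *
          (kernel 10 (239 / 10500) (psi σ) r c d + kernel 10 (239 / 10500) (psi σ) r d c) +
        201600 * σ * (max d 0 * max c 0 ^ 2 + max c 0 * max d 0 ^ 2) ∧
      (R ≤ 1 / 4 ∨ 5 / 2 ≤ R → T R (max c 0) d m + T R (max d 0) c m ≤ 252000 * R ^ 6 *
          (kernel 10 (239 / 10500) (psi σ) r c d + kernel 10 (239 / 10500) (psi σ) r d c)) := by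
  set R := Real.sqrt (σ ^ 2 + r ^ 2) with hR
  have hS : 0 < σ ^ 2 + r ^ 2 := by positivity
  have hR0 : 0 < R := Real.sqrt_pos.2 hS
  have hrR : r ≤ R := by rw [hR]; exact Real.le_sqrt_of_sq_le (by nlinarith [sq_nonneg σ])
  have hRσ : R ≤ r + σ := by
    rw [hR]; exact (Real.sqrt_le_iff).2 ⟨by linarith, by nlinarith⟩
  have hc2 : c ^ 2 ≤ 1 := (sq_le_one_iff_abs_le_one c).2 hc
  have hd2 : d ^ 2 ≤ 1 := (sq_le_one_iff_abs_le_one d).2 hd
  set m := Real.sqrt (1 - c ^ 2) * Real.sqrt (1 - d ^ 2) with hm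
  have hm0 : 0 ≤ m := by positivity
  have hτ : r ^ 2 / R ^ 2 * R ^ 2 = r ^ 2 := div_mul_cancel₀ _ (pow_ne_zero 2 hR0.ne')
  have hτ1 : r ^ 2 / R ^ 2 ≤ 1 :=
    div_le_one_of_le₀ (pow_le_pow_left₀ hr hrR 2) (sq_nonneg R)
  have h1 := reg_ge (m := m) hr hrR hRσ hτ (by positivity) hτ1 (le_max_right c 0)
    (max_le ((le_abs_self c).trans hc) zero_le_one) hd hm0
  have h2 := reg_ge (m := m) hr hrR hRσ hτ (by positivity) hτ1 (le_max_right d 0)
    (max_le ((le_abs_self d).trans hd) zero_le_one) hc hm0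
  have e1 : _ = Treg r R (r ^ 2 / R ^ 2) (max c 0) d m := kernel_eq hσ hr hc
  have e2 : _ = Treg r R (r ^ 2 / R ^ 2) (max d 0) c m :=
    (kernel_eq (d := c) hσ hr hd).trans (by rw [hm, mul_comm])
  rw [← e1] at h1
  rw [← e2] at h2
  refine ⟨R, m, hR0, hrR, hRσ, hm0, ?_, fun hc' hd' => ?_, by linarith [h1.1, h2.1],
    fun h => by linarith [h1.2 h, h2.2 h]⟩
  · nlinarith [sq_nonneg (Real.sqrt (1 - c ^ 2) - Real.sqrt (1 - d ^ 2)),
      Real.sq_sqrt (show 0 ≤ 1 - c ^ 2 by linarith),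
      Real.sq_sqrt (show 0 ≤ 1 - d ^ 2 by linarith)]
  · exact rootBound hc' ((le_abs_self c).trans hc) hd' ((le_abs_self d).trans hd)

lemma kernel_nonneg {σ : ℝ} (hσ : 0 < σ) (hσ1 : σ ≤ 1 / 10000000) {r c d : ℝ} (hr : 0 ≤ r)
    (hc : |c| ≤ 1) (hd : |d| ≤ 1) :
    0 ≤ kernel 10 (239 / 10500) (psi σ) r c d + kernel 10 (239 / 10500) (psi σ) r d c := by
  obtain ⟨R, m, hR, -, -, hm0, hm', hm, h1, h2⟩ := kernel_sum hσ hr hc hd
  have hsum := sum_ge hR.le hc hd hm hm' hm0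
  refine nonneg_of_mul_nonneg_right (a := 252000 * R ^ 6) ?_ (by positivity)
  rcases le_total R (1 / 4) with h | h
  · exact ((sq_nonneg R).trans hsum).trans (h2 (Or.inl h))
  · have hu := max_le ((le_abs_self c).trans hc) (zero_le_one (α := ℝ))
    have hv := max_le ((le_abs_self d).trans hd) (zero_le_one (α := ℝ))
    have hu0 := le_max_right c 0
    have hv0 := le_max_right d 0
    have h3 : max d 0 * max c 0 ^ 2 + max c 0 * max d 0 ^ 2 ≤ 2 := by
      nlinarith [mul_le_one₀ hu hv0 hv]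
    have h4 := mul_le_mul_of_nonneg_left h3 (show 0 ≤ 201600 * σ by positivity)
    nlinarith

/-- The end weight. -/
def g (c : ℝ) : ℝ := g0 c / 252000

lemma g_nonpos {c : ℝ} (hc : 0 ≤ c) (hc1 : c ≤ 1) : g c ≤ 0 := by
  unfold g g0
  refine div_nonpos_of_nonpos_of_nonneg (neg_nonpos.2 ?_) (by norm_num)
  have h1 : c ^ 7 ≤ c ^ 3 := pow_le_pow_of_le_one hc hc1 (by norm_num)
  have h2 : c ^ 7 ≤ c ^ 5 := pow_le_pow_of_le_one hc hc1 (by norm_num)
  have : 0 ≤ c ^ 7 := by positivity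
  linarith

lemma pair_reg {σ : ℝ} (hσ : 0 < σ) (hσ1 : σ ≤ 1 / 10000000) {r c d : ℝ} (hr : 0 < r)
    (hc : 0 < c) (hc1 : c ≤ 1) (hd : 0 < d) (hd1 : d ≤ 1) :
    r - 22 * σ + g c + g d ≤ r ^ (10 - 1) *
      (kernel 10 (239 / 10500) (psi σ) r c d + kernel 10 (239 / 10500) (psi σ) r d c) /
        (2 * c * d) := by
  have hac : |c| ≤ 1 := by rwa [abs_of_pos hc]
  have had : |d| ≤ 1 := by rwa [abs_of_pos hd]
  set k := kernel 10 (239 / 10500) (psi σ) r c d + kernel 10 (239 / 10500) (psi σ) r d c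
  have hk : 0 ≤ k := kernel_nonneg hσ hσ1 hr.le hac had
  obtain ⟨R, m, hR0, hrR, hRσ, hm0, -, hm, h1, h2⟩ := kernel_sum hσ hr.le hac had
  rw [max_eq_left hc.le, max_eq_left hd.le] at h1 h2
  have hp := pair hR0.le hc.le hc1 hd.le hd1 (hm hc.le hd.le) hm0
  have hcd : 0 < c * d := mul_pos hc hd
  have h3 : 2 * c * d * (R + g c + g d - 13 * σ) ≤ R ^ 9 * k := by
    have e : R ^ 3 * (252000 * R ^ 6 * k) = 252000 * (R ^ 9 * k) := by ring
    rcases le_total R (5 / 2) with h | h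
    · have hR3 : R ^ 3 ≤ (5 / 2 : ℝ) ^ 3 := pow_le_pow_left₀ hR0.le h 3
      have hl : d * c ^ 2 + c * d ^ 2 ≤ 2 * (c * d) := by
        nlinarith [mul_le_mul_of_nonneg_left hc1 hcd.le, mul_le_mul_of_nonneg_left hd1 hcd.le]
      have h4 := mul_le_mul hR3 (mul_le_mul_of_nonneg_left hl
        (show 0 ≤ 201600 * σ by positivity)) (by positivity) (by norm_num)
      have h5 := mul_le_mul_of_nonneg_left h1 (pow_nonneg hR0.le 3)
      unfold g
      nlinarith [mul_pos hσ hcd]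
    · have h5 := mul_le_mul_of_nonneg_left (h2 (Or.inr h)) (pow_nonneg hR0.le 3)
      unfold g
      nlinarith [mul_pos hσ hcd]
  rw [le_div_iff₀ (by positivity), show (10 - 1 : ℕ) = 9 from rfl]
  set Y := R + g c + g d - 13 * σ with hY
  rcases le_or_gt Y 0 with h | h
  · exact (mul_nonpos_of_nonpos_of_nonneg (by linarith) (by positivity)).trans
      (mul_nonneg (by positivity) hk)
  have hx1 : r / R ≤ 1 := (div_le_one hR0).2 hrR
  have hbern : 1 + 9 * (r / R - 1) ≤ (r / R) ^ 9 := by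
    have := one_add_mul_le_pow (a := r / R - 1) (by linarith [div_nonneg hr.le hR0.le]) 9
    simpa using this
  have hYR : Y ≤ R := by linarith [g_nonpos hc.le hc1, g_nonpos hd.le hd1]
  have h4 : r - 22 * σ + g c + g d ≤ (r / R) ^ 9 * Y := by
    have a1 : (1 + 9 * (r / R - 1)) * Y ≤ (r / R) ^ 9 * Y :=
      mul_le_mul_of_nonneg_right hbern h.le
    have a2 : (1 - r / R) * Y ≤ (1 - r / R) * R :=
      mul_le_mul_of_nonneg_left hYR (by linarith)
    have a3 : (1 - r / R) * R = R - r := by field_simp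
    linarith
  calc (r - 22 * σ + g c + g d) * (2 * c * d)
      ≤ (r / R) ^ 9 * Y * (2 * c * d) := mul_le_mul_of_nonneg_right h4 (by positivity)
    _ = (r / R) ^ 9 * (2 * c * d * Y) := by ring
    _ ≤ (r / R) ^ 9 * (R ^ 9 * k) := mul_le_mul_of_nonneg_left h3 (by positivity)
    _ = r ^ 9 * k := by rw [← mul_assoc, ← mul_pow, div_mul_cancel₀ _ hR0.ne']

lemma balance : ∀ hn : 0 < 10, 239 / 10500 * ((10 : ℕ) : ℝ) * omega 10 =
    omega 10 + 2 * ((10 : ℕ) : ℝ) * gInt hn g := by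
  intro hn
  set i : Fin 10 := ⟨0, hn⟩
  have e : (fun v : E 10 => g (v i / ‖v‖) * (v i / ‖v‖)) =
      fun v => -(2 / 3) * Cert.cosc i v ^ 2 + -(16 / 45) * Cert.cosc i v ^ 4 +
        -(152 / 375) * Cert.cosc i v ^ 6 + 3904 / 7875 * Cert.cosc i v ^ 8 := by
    funext v; simp only [g, g0, Cert.cosc]; ring
  have p : ∀ (C : ℝ) (k : ℕ),
      IntegrableOn (fun v => C * Cert.cosc i v ^ k) (Metric.ball (0 : E 10) 1) := fun C k =>
    (Cert.integrableOn_ball (Cert.measurable_pow_cosc i k) (Cert.bound_pow_cosc i k)).const_mul _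
  have p6 := ((p (-(2 / 3)) 2).fun_add (p (-(16 / 45)) 4)).fun_add (p (-(152 / 375)) 6)
  have p8 := p6.fun_add (p (3904 / 7875) 8)
  rw [gInt, e, Cert.integral_half hn
    (fun v => by simp only [Cert.cosc, PiLp.neg_apply, norm_neg]; ring) p8,
    integral_add p6 (p _ 8), integral_add ((p _ 2).fun_add (p _ 4)) (p _ 6),
    integral_add (p _ 2) (p _ 4), integral_const_mul, integral_const_mul, integral_const_mul,
    integral_const_mul, Cert.cosc_two hn, Cert.cosc_four hn, cosc_six hn, cosc_eight hn]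
  push_cast
  ring

end

end Vale.Agent.P219.CH.Gen.Ten

namespace Vale.Agent.P219.CH.Gen

/-- The certificate in dimension ten. -/
noncomputable def cert10 : Cert 10 where
  a := 239 / 10500
  a_nonneg := by norm_num
  g := Ten.g
  g_cont := by unfold Ten.g Ten.g0; fun_prop
  g_nonpos c hc := Ten.g_nonpos hc.1 hc.2
  approx σ hσ := by
    have hτ : 0 < min (σ / 22) (1 / 10000000) := lt_min (by positivity) (by norm_num)
    refine ⟨Ten.psi (min (σ / 22) (1 / 10000000)), Ten.contDiff_psi hτ,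
      fun s p hs => Ten.psi_nonneg hτ hs p,
      fun r c d hr hc hd => Ten.kernel_nonneg hτ (min_le_right _ _) hr hc hd,
      fun r c d hr hc hc1 hd hd1 => ?_⟩
    have h := Ten.pair_reg hτ (min_le_right _ _) hr hc hc1 hd hd1
    have := min_le_left (σ / 22) (1 / 10000000 : ℝ)
    linarith
  balance := Ten.balance

end Vale.Agent.P219.CH.Gen
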